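import Vale.Agent.P372.Main

/-! No key bit when every announcement of one party comes from block-local operations. -/

namespace Vale.Agent.P372

open Matrix Finset
open scoped Kronecker ComplexOrder

/-- Protocols in which one party (Bob if `side = true`, else Alice) computes all that she or he
announces by operations local to the blocks: for every transcript the sum over the final key of
that party's effects is a tensor product over the blocks. The other party is arbitrary. -/
def LocalAnnounce {d N l : ℕ} (sz : Fin N → ℕ) (side : Bool) {T : Type}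
    (Eff : T → (Fin l → Bool) → (Fin l → Bool) →
      Matrix (Sys d sz × Sys d sz) (Sys d sz × Sys d sz) ℂ) : Prop :=
  ∃ (F R : T → (Fin l → Bool) → Matrix (Sys d sz) (Sys d sz) ℂ)
    (b : T → ∀ i, Matrix (Fin (sz i) → Fin d) (Fin (sz i) → Fin d) ℂ),
    (∀ t k, (F t k).PosSemidef) ∧ (∀ t k, (R t k).PosSemidef) ∧ (∀ t i, (b t i).PosSemidef) ∧
    (∀ t, ∑ k, R t k = Matrix.of (fun a a' : Sys d sz => ∏ i, b t i (a i) (a' i))) ∧
    ∀ t ka kb, Eff t ka kb = if side = true then F t ka ⊗ₖ R t kb else R t ka ⊗ₖ F t kb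

lemma steer_psd {A B : Type*} [Fintype A] [DecidableEq A] [Fintype B] [DecidableEq B]
    {M : Matrix A A ℂ} (hM : M.PosSemidef) {R : Matrix (A × B) (A × B) ℂ} (hR : R.PosSemidef) :
    (steer M R).PosSemidef := by
  obtain ⟨L, rfl⟩ := psd_factor hM
  let W : A → Matrix B (A × B) ℂ := fun i =>
    Matrix.of fun b p => if p.2 = b then L i p.1 else 0
  have : steer (Lᴴ * L) R = ∑ i, W i * R * (W i)ᴴ := by
    ext b b'
    simp only [steer, of_apply, Matrix.sum_apply, Matrix.mul_apply, conjTranspose_apply, W,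
      Fintype.sum_prod_type, Finset.sum_mul, apply_ite (star : ℂ → ℂ), star_zero, mul_ite,
      mul_zero, ite_mul, zero_mul, Finset.sum_ite_eq', Finset.sum_ite_irrel, Finset.sum_const_zero,
      mem_univ, if_true]
    rw [Finset.sum_comm]
    conv_lhs => enter [2, a']; rw [Finset.sum_comm]
    rw [Finset.sum_comm]
    exact Finset.sum_congr rfl fun i _ => Finset.sum_congr rfl fun a' _ =>
      Finset.sum_congr rfl fun a _ => by ring
  rw [this]
  exact posSemidef_sum _ fun i _ => hR.mul_mul_conjTranspose_same _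

lemma steer_one {A B : Type*} [Fintype A] [DecidableEq A] [DecidableEq B] (M : Matrix A A ℂ) :
    steer M (1 : Matrix (A × B) (A × B) ℂ) = M.trace • (1 : Matrix B B ℂ) := by
  rw [← one_kronecker_one, steer_kronecker, Matrix.mul_one]

lemma steer_zero {A B : Type*} [Fintype A] (R : Matrix (A × B) (A × B) ℂ) :
    steer (0 : Matrix A A ℂ) R = 0 := by
  ext b b'; simp [steer]

lemma kronecker_sub' {A B : Type*} (M : Matrix A A ℂ) (N N' : Matrix B B ℂ) :
    M ⊗ₖ (N - N') = M ⊗ₖ N - M ⊗ₖ N' := by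
  ext p q; simp [mul_sub]

section kernel

variable {P : Type*} [Fintype P] [DecidableEq P]

/-- The Choi matrix of Eve's simulation map on one block, ordered `(B', (A, B))`. -/
noncomputable def simKer (ρ : Matrix (P × P) (P × P) ℂ) (b : Matrix P P ℂ) :
    Matrix (P × (P × P)) (P × (P × P)) ℂ :=
  ((b.trace.re⁻¹ : ℝ) : ℂ) •
    ((1 : Matrix P P ℂ) ⊗ₖ (ρ - ((b.trace.re⁻¹ : ℝ) : ℂ) •
        (steer b (ρ.submatrix Prod.swap Prod.swap) ⊗ₖ (1 : Matrix P P ℂ))) +
      (ρ ⊗ₖ (1 : Matrix P P ℂ)).submatrix (fun p => ((p.2.1, p.1), p.2.2))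
        (fun p => ((p.2.1, p.1), p.2.2)))

/-- Reorder `(B, (B', A))` to `(B', (A, B))`. -/
abbrev rot {X Y Z : Type*} (p : X × (Y × Z)) : Y × (Z × X) := (p.2.1, (p.2.2, p.1))

variable {ρ : Matrix (P × P) (P × P) ℂ} {b : Matrix P P ℂ}

lemma simKer_psd (hb : b.PosSemidef) {c β : ℝ} (hc : 0 ≤ c) (hβ : 3 * β ≤ 1)
    (hlow : (ρ - ((c * (1 - β) : ℝ) : ℂ) • 1).PosSemidef)
    (hhigh : (((c * (1 + β) : ℝ) : ℂ) • 1 - ρ).PosSemidef) (hs : 0 < b.trace.re) :
    (simKer ρ b).PosSemidef := by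
  have hG : (((c * (1 + β) : ℝ) : ℂ) • (1 : Matrix P P ℂ)
      - ((b.trace.re⁻¹ : ℝ) : ℂ) • steer b (ρ.submatrix Prod.swap Prod.swap)).PosSemidef := by
    have h := psd_smul_real (steer_psd hb (hhigh.submatrix Prod.swap)) (inv_nonneg.mpr hs.le)
    rw [show ((((c * (1 + β) : ℝ) : ℂ) • 1 - ρ).submatrix Prod.swap Prod.swap)
        = ((c * (1 + β) : ℝ) : ℂ) • (1 : Matrix (P × P) (P × P) ℂ)
          - ρ.submatrix Prod.swap Prod.swap from by
            ext p q; simp [Matrix.one_apply, Prod.swap_inj], steer_sub, steer_smul, steer_one,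
      trace_ofReal hb, Complex.ofReal_re, smul_sub] at h
    convert h using 2
    simp only [smul_smul]
    congr 1
    push_cast
    field_simp
  refine psd_smul_real ?_ (inv_nonneg.mpr hs.le)
  have key : (1 : Matrix P P ℂ) ⊗ₖ (ρ - ((b.trace.re⁻¹ : ℝ) : ℂ) •
        (steer b (ρ.submatrix Prod.swap Prod.swap) ⊗ₖ (1 : Matrix P P ℂ))) +
      (ρ ⊗ₖ (1 : Matrix P P ℂ)).submatrix (fun p => ((p.2.1, p.1), p.2.2))
        (fun p => ((p.2.1, p.1), p.2.2))
      = (1 : Matrix P P ℂ) ⊗ₖ (ρ - ((c * (1 - β) : ℝ) : ℂ) • 1) +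
        ((ρ - ((c * (1 - β) : ℝ) : ℂ) • 1) ⊗ₖ (1 : Matrix P P ℂ)).submatrix
          (fun p => ((p.2.1, p.1), p.2.2)) (fun p => ((p.2.1, p.1), p.2.2)) +
        (1 : Matrix P P ℂ) ⊗ₖ ((((c * (1 + β) : ℝ) : ℂ) • (1 : Matrix P P ℂ)
          - ((b.trace.re⁻¹ : ℝ) : ℂ) • steer b (ρ.submatrix Prod.swap Prod.swap))
            ⊗ₖ (1 : Matrix P P ℂ)) +
        ((c * (1 - 3 * β) : ℝ) : ℂ) • 1 := by
    ext ⟨x, y, z⟩ ⟨x', y', z'⟩
    simp [Matrix.one_apply]
    split_ifs <;> ring_nf <;> simp_all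
  rw [key]
  exact (((PosSemidef.one.kronecker hlow).add
    ((hlow.kronecker PosSemidef.one).submatrix _)).add
    (PosSemidef.one.kronecker (hG.kronecker PosSemidef.one))).add
    (psd_smul_real PosSemidef.one (mul_nonneg hc (by linarith)))

lemma simKer_total (hb : b.PosSemidef) (hs : 0 < b.trace.re) :
    steer b (simKer ρ b) = ρ := by
  have hne : ((b.trace.re : ℝ) : ℂ) ≠ 0 := by exact_mod_cast hs.ne'
  have h2 : steer b ((ρ ⊗ₖ (1 : Matrix P P ℂ)).submatrix (fun p => ((p.2.1, p.1), p.2.2))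
      (fun p => ((p.2.1, p.1), p.2.2)))
      = steer b (ρ.submatrix Prod.swap Prod.swap) ⊗ₖ (1 : Matrix P P ℂ) := by
    ext p q
    simp [steer, Finset.sum_mul, mul_assoc]
  rw [simKer, steer_smul, steer_add, steer_kronecker, Matrix.mul_one, h2, trace_ofReal hb,
    smul_sub, smul_smul, Complex.ofReal_inv, Complex.ofReal_re, mul_inv_cancel₀ hne, one_smul,
    sub_add_cancel, smul_smul, inv_mul_cancel₀ hne, one_smul]

lemma simKer_marginal (hb : b.PosSemidef) (hs : 0 < b.trace.re) :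
    steer b ((simKer ρ b).submatrix rot rot) = ρ.submatrix Prod.swap Prod.swap := by
  have hne : ((b.trace.re : ℝ) : ℂ) ≠ 0 := by exact_mod_cast hs.ne'
  set G := steer b (ρ.submatrix Prod.swap Prod.swap) with hG
  have h1 : steer b (((1 : Matrix P P ℂ) ⊗ₖ ρ).submatrix rot rot) = (1 : Matrix P P ℂ) ⊗ₖ G := by
    ext p q
    simp [hG, steer, Finset.mul_sum, mul_left_comm]
  have h2 : steer b (((1 : Matrix P P ℂ) ⊗ₖ (G ⊗ₖ (1 : Matrix P P ℂ))).submatrix rot rot)
      = b.trace • ((1 : Matrix P P ℂ) ⊗ₖ G) := by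
    rw [show ((1 : Matrix P P ℂ) ⊗ₖ (G ⊗ₖ (1 : Matrix P P ℂ))).submatrix rot rot
        = (1 : Matrix P P ℂ) ⊗ₖ ((1 : Matrix P P ℂ) ⊗ₖ G) from by ext p q; simp; ring,
      steer_kronecker, Matrix.mul_one]
  have h3 : steer b (((ρ ⊗ₖ (1 : Matrix P P ℂ)).submatrix (fun p => ((p.2.1, p.1), p.2.2))
      (fun p => ((p.2.1, p.1), p.2.2))).submatrix rot rot)
      = b.trace • ρ.submatrix Prod.swap Prod.swap := by
    rw [show ((ρ ⊗ₖ (1 : Matrix P P ℂ)).submatrix (fun p => ((p.2.1, p.1), p.2.2))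
      (fun p => ((p.2.1, p.1), p.2.2))).submatrix rot rot
        = (1 : Matrix P P ℂ) ⊗ₖ ρ.submatrix Prod.swap Prod.swap from by
          ext p q; exact mul_comm _ _,
      steer_kronecker, Matrix.mul_one]
  rw [simKer, submatrix_smul, Pi.smul_apply, Pi.smul_apply, submatrix_add, Pi.add_apply,
    Pi.add_apply, kronecker_sub', submatrix_sub, Pi.sub_apply, Pi.sub_apply, kronecker_smul,
    submatrix_smul, Pi.smul_apply, Pi.smul_apply, steer_smul, steer_add, steer_sub, steer_smul,
    ← hG, h1, h2, h3, trace_ofReal hb, Complex.ofReal_inv, Complex.ofReal_re, smul_smul,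
    inv_mul_cancel₀ hne, one_smul, sub_self, zero_add, smul_smul, inv_mul_cancel₀ hne, one_smul]

end kernel

lemma trace_rot {X Y Z : Type*} [Fintype X] [Fintype Y] [Fintype Z] (U : Matrix X X ℂ)
    (V : Matrix Y Y ℂ) (W : Matrix Z Z ℂ) (C : Matrix (Y × (Z × X)) (Y × (Z × X)) ℂ) :
    ((V ⊗ₖ (W ⊗ₖ U)) * C).trace = ((U ⊗ₖ (V ⊗ₖ W)) * C.submatrix rot rot).trace := by
  let e : X × (Y × Z) ≃ Y × (Z × X) :=
    ⟨rot, fun q => (q.2.2, (q.1, q.2.1)), fun _ => rfl, fun _ => rfl⟩
  simp only [Matrix.trace, diag_apply, Matrix.mul_apply]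
  rw [← Equiv.sum_comp e]
  refine Finset.sum_congr rfl fun p _ => ?_
  rw [← Equiv.sum_comp e]
  refine Finset.sum_congr rfl fun q _ => ?_
  simp [e, mul_comm, mul_left_comm, mul_assoc]

lemma steer_submatrix {A B B' : Type*} [Fintype A] (M : Matrix A A ℂ)
    (C : Matrix (A × B) (A × B) ℂ) (e : B' → B) :
    steer M (C.submatrix (fun p => (p.1, e p.2)) (fun p => (p.1, e p.2)))
      = (steer M C).submatrix e e := by
  ext b b'; simp [steer]

/-- Eve simulates the party with block-local announcements. -/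
lemma exists_sim {N : ℕ} {P : Fin N → Type} [∀ i, Fintype (P i)] [∀ i, DecidableEq (P i)]
    {ρ : ∀ i, Matrix (P i × P i) (P i × P i) ℂ}
    (hbd : ∀ i, ∃ c β : ℝ, 0 ≤ c ∧ 3 * β ≤ 1 ∧ (ρ i - ((c * (1 - β) : ℝ) : ℂ) • 1).PosSemidef ∧
      (((c * (1 + β) : ℝ) : ℂ) • 1 - ρ i).PosSemidef)
    (hρ : ∀ i, (ρ i).PosSemidef) {κ : Type} [Fintype κ] [Nonempty κ]
    {R : κ → Matrix (∀ i, P i) (∀ i, P i) ℂ} (hR : ∀ k, (R k).PosSemidef)
    {b : ∀ i, Matrix (P i) (P i) ℂ} (hb : ∀ i, (b i).PosSemidef)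
    (hsum : ∑ k, R k = piMat b) :
    ∃ K : κ → Matrix ((∀ i, P i) × (∀ i, P i)) ((∀ i, P i) × (∀ i, P i)) ℂ,
      (∀ k, (K k).PosSemidef) ∧ ∑ k, K k = pairSq ρ ∧
      ∀ k F, ((F ⊗ₖ piMat b) * K k).trace = ((F ⊗ₖ R k) * pairSq ρ).trace := by
  classical
  by_cases hz : ∀ i, 0 < (b i).trace.re
  · let pr : ((∀ i, P i) × (∀ i, P i)) → ∀ i, P i × P i := fun p i => (p.1 i, p.2 i)
    let C : Matrix ((∀ i, P i) × ((∀ i, P i) × (∀ i, P i)))
        ((∀ i, P i) × ((∀ i, P i) × (∀ i, P i))) ℂ :=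
      (pairSq (X := P) (Y := fun i => P i × P i) fun i => simKer (ρ i) (b i)).submatrix
        (fun p => (p.1, pr p.2)) (fun p => (p.1, pr p.2))
    have hC : C.PosSemidef := by
      refine (pairSq_psd (X := P) (Y := fun i => P i × P i) fun i => ?_).submatrix _
      obtain ⟨c, β, hc, hβ, hl, hh⟩ := hbd i
      exact simKer_psd (hb i) hc hβ hl hh (hz i)
    have htot : steer (piMat b) C = pairSq ρ := by
      simp only [C]
      rw [steer_submatrix, steer_piMat_pairSq]
      simp only [simKer_total (hb _) (hz _)]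
      rfl
    have hmar : steer (piMat b) (C.submatrix rot rot)
        = (pairSq ρ).submatrix Prod.swap Prod.swap := by
      have : C.submatrix rot rot
          = (pairSq (X := P) (Y := fun i => P i × P i) fun i =>
              (simKer (ρ i) (b i)).submatrix rot rot).submatrix
            (fun p => (p.1, pr p.2)) (fun p => (p.1, pr p.2)) := rfl
      rw [this, steer_submatrix, steer_piMat_pairSq]
      simp only [simKer_marginal (hb _) (hz _)]
      rfl
    refine ⟨fun k => steer (R k) C, fun k => steer_psd (hR k) hC, ?_, fun k F => ?_⟩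
    · rw [← htot, ← hsum]
      ext p q
      simp only [Matrix.sum_apply, steer, of_apply, Finset.sum_mul]
      rw [Finset.sum_comm]
      exact Finset.sum_congr rfl fun a _ => Finset.sum_comm
    · rw [← trace_kronecker_mul, trace_rot, trace_kronecker_mul, hmar,
        ← trace_mul_submatrix_swap]
  · obtain ⟨i₀, hi₀⟩ := not_forall.mp hz
    have h0 : b i₀ = 0 := by
      rw [← (hb i₀).trace_eq_zero_iff, trace_ofReal (hb i₀)]
      have := (Complex.le_def.mp (hb i₀).trace_nonneg).1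
      simp only [Complex.zero_re] at this
      rw [le_antisymm (not_lt.mp hi₀) this, Complex.ofReal_zero]
    have hB : piMat b = 0 := by
      ext x y
      simp only [piMat, of_apply, Matrix.zero_apply]
      exact Finset.prod_eq_zero (mem_univ i₀) (by simp [h0])
    have hR0 : ∀ k, R k = 0 := by
      intro k
      rw [← (hR k).trace_eq_zero_iff]
      refine le_antisymm ?_ (hR k).trace_nonneg
      calc (R k).trace ≤ ∑ j, (R j).trace :=
            Finset.single_le_sum (fun j _ => (hR j).trace_nonneg) (mem_univ k)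
        _ = 0 := by rw [← trace_sum, hsum, hB, trace_zero]
    obtain ⟨k₀⟩ := ‹Nonempty κ›
    refine ⟨fun k => if k = k₀ then pairSq ρ else 0, fun k => ?_, by simp, fun k F => ?_⟩
    · simp only
      split_ifs
      · exact pairSq_psd hρ
      · exact PosSemidef.zero
    · simp [hB, hR0]

lemma sim_cancel {κ X : Type*} [Fintype κ] [Fintype X] (w : κ → κ → ℂ)
    (E : κ → κ → Matrix X X ℂ) (K : κ → Matrix X X ℂ) (ρ : Matrix X X ℂ) (hsum : ∑ k, K k = ρ)
    (h : ∀ k k', ((∑ kb, E k kb) * K k').trace = (E k k' * ρ).trace) :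
    ∑ k', ∑ ka, ∑ kb, (w ka kb - w ka k') * (E ka kb * K k').trace = 0 := by
  simp only [sub_mul, Finset.sum_sub_distrib]
  rw [sub_eq_zero, Finset.sum_comm]
  conv_rhs => rw [Finset.sum_comm]
  refine Finset.sum_congr rfl fun ka _ => ?_
  rw [Finset.sum_comm]
  refine Finset.sum_congr rfl fun k _ => ?_
  rw [← Finset.mul_sum, ← trace_sum, ← Matrix.mul_sum, hsum, ← h ka k, ← Finset.mul_sum,
    ← trace_sum, ← Matrix.sum_mul]

/-- If Eve can simulate one party exactly, the final state is far from an ideal key. -/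
lemma far_from_ideal_sim {l : ℕ} {T Z X : Type} [Fintype T] [DecidableEq T] [Fintype Z]
    [DecidableEq Z] [Fintype X] [DecidableEq X] (Ψ : Matrix X Z ℂ) {Ri : Matrix X X ℂ}
    (hRi : Ri.IsHermitian) (hinv : Ψ * Ψᴴ * Ri = 1)
    (Eff : T → (Fin (l + 1) → Bool) → (Fin (l + 1) → Bool) → Matrix X X ℂ) (side : Bool)
    (hdec : ∀ t, ∃ K : (Fin (l + 1) → Bool) → Matrix X X ℂ, (∀ k, (K k).PosSemidef) ∧
      ∑ k, K k = Ψ * Ψᴴ ∧ ∀ k k', if side = true then
        (((∑ kb, Eff t k kb) * K k').trace = (Eff t k k' * (Ψ * Ψᴴ)).trace)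
      else (((∑ ka, Eff t ka k) * K k').trace = (Eff t k' k * (Ψ * Ψᴴ)).trace))
    (σE : Matrix (T × Z) (T × Z) ℂ) (hσE : IsState σE) :
    1 / 2 ≤ traceNorm (finalState Ψ Eff - idealState σE) := by
  classical
  choose K hK hKsum hKtr using hdec
  choose G hGp hG1 hGt using fun t => eve_pretty_good Ψ hRi hinv (K t) (hK t) (hKsum t)
  let blk : T → Matrix Z Z ℂ := fun t => σE.submatrix (Prod.mk t) (Prod.mk t)
  -- the restricted party's bit, the other party's bit, Eve's guess
  let rb : ((Fin (l + 1) → Bool) × (Fin (l + 1) → Bool)) → Bool := fun k => if side = true then k.2 0 else k.1 0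
  let ob : ((Fin (l + 1) → Bool) × (Fin (l + 1) → Bool)) → Bool := fun k => if side = true then k.1 0 else k.2 0
  let gb : Option (Fin (l + 1) → Bool) → Bool := fun j => j.elim false fun k => k 0
  let event : ((Fin (l + 1) → Bool) × (Fin (l + 1) → Bool)) → Option (Fin (l + 1) → Bool) → Bool × Bool :=
    fun k j => (decide (ob k = rb k), decide (ob k = gb j))
  let D : T × Option (Fin (l + 1) → Bool) → Bool × Bool → ((Fin (l + 1) → Bool) × (Fin (l + 1) → Bool)) → ℂ :=
    fun s u k => if event k s.2 = u then 1 else 0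
  let piece : T × Option (Fin (l + 1) → Bool) → Bool × Bool →
      Matrix (Final (l + 1) T Z) (Final (l + 1) T Z) ℂ := fun s u =>
    diagonal (D s u) ⊗ₖ (diagonal (Pi.single s.1 1) ⊗ₖ G s.1 s.2)
  let test : Bool × Bool → Matrix (Final (l + 1) T Z) (Final (l + 1) T Z) ℂ :=
    fun u => ∑ s, piece s u
  have htp : ∀ u, (test u).PosSemidef := fun u => posSemidef_sum _ fun s _ => by
    refine (PosSemidef.diagonal fun k => ?_).kronecker
      ((PosSemidef.diagonal fun t => ?_).kronecker (hGp _ _))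
    · simp only [D, Pi.zero_apply]; split_ifs <;> simp
    · simp only [Pi.zero_apply, Pi.single_apply]; split_ifs <;> simp
  have ht1 : ∑ u, test u = 1 := by
    simp only [test]
    rw [Finset.sum_comm]
    have hu : ∀ s, ∑ u, piece s u
        = (1 : Matrix ((Fin (l + 1) → Bool) × (Fin (l + 1) → Bool)) ((Fin (l + 1) → Bool) × (Fin (l + 1) → Bool)) ℂ) ⊗ₖ (diagonal (Pi.single s.1 1) ⊗ₖ G s.1 s.2) := by
      intro s
      simp only [piece]
      rw [← sum_kronecker]
      congr 1
      ext k k'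
      by_cases h : k = k' <;> simp [Matrix.sum_apply, Matrix.one_apply, h, D]
    simp only [hu, Fintype.sum_prod_type]
    ext ⟨k, t, z⟩ ⟨k', t', z'⟩
    have hz : ∀ t₀, ∑ j, G t₀ j z z' = (1 : Matrix Z Z ℂ) z z' := fun t₀ => by
      rw [← hG1 t₀, Matrix.sum_apply]
    simp only [Matrix.sum_apply, kroneckerMap_apply, ← Finset.mul_sum, hz]
    by_cases hk : k = k' <;> by_cases ht : t = t' <;>
      simp [Matrix.one_apply, hk, ht, Pi.single_apply]
  set Y : Matrix (Final (l + 1) T Z) (Final (l + 1) T Z) ℂ :=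
    finalState Ψ Eff - idealState σE with hY
  refine le_trans ?_ (sum_trace_mul_le_traceNorm test htp ht1 Y)
  -- the two events have equal weight in the final state and differ by one half in the ideal one
  let sgn : ((Fin (l + 1) → Bool) × (Fin (l + 1) → Bool)) → Option (Fin (l + 1) → Bool) → ℂ := fun k j =>
    (if ob k = rb k then 1 else 0) - (if ob k = gb j then 1 else 0)
  have hdiff : (test (true, false) * Y).trace - (test (false, true) * Y).trace
      = ∑ t, ∑ j, ∑ k : ((Fin (l + 1) → Bool) × (Fin (l + 1) → Bool)), sgn k j *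
          ∑ z, ∑ z', G t j z z' * Y (k, (t, z')) (k, (t, z)) := by
    simp only [test, piece, Matrix.sum_mul, trace_sum, trace_diag_diag_mul,
      ← Finset.sum_sub_distrib]
    rw [Fintype.sum_prod_type]
    refine Finset.sum_congr rfl fun t _ => Finset.sum_congr rfl fun j _ => ?_
    refine Finset.sum_congr rfl fun k _ => ?_
    simp only [Pi.single_apply, mul_ite, mul_one, mul_zero, ite_mul, zero_mul,
      Finset.sum_ite_eq', mem_univ, if_true, Finset.sum_sub_distrib]
    by_cases h1 : ob k = rb k <;> by_cases h2 : ob k = gb j <;>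
      simp [D, sgn, event, h1, h2] <;> split_ifs <;> simp_all
  have hE : ∀ t j (ka kb : Fin (l + 1) → Bool),
      ∑ z, ∑ z', G t j z z' * eveState Ψ (Eff t ka kb) z' z
        = j.elim 0 fun k => (Eff t ka kb * K t k).trace := by
    intro t j ka kb
    rw [← hGt t j]
    simp [Matrix.trace, Matrix.mul_apply]
  have hI : ∀ t j (ka kb : Fin (l + 1) → Bool),
      ∑ z, ∑ z', G t j z z' * idealState σE ((ka, kb), (t, z')) ((ka, kb), (t, z))
        = if ka = kb then ((2 : ℂ) ^ (l + 1))⁻¹ * (G t j * blk t).trace else 0 := by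
    intro t j ka kb
    simp only [idealState, of_apply, true_and]
    split_ifs with h
    · simp [Matrix.trace, Matrix.mul_apply, blk, Finset.mul_sum, mul_left_comm]
    · simp
  have hF : ∀ t j (ka kb : Fin (l + 1) → Bool),
      ∑ z, ∑ z', G t j z z' * Y ((ka, kb), (t, z')) ((ka, kb), (t, z))
        = (j.elim 0 fun k => (Eff t ka kb * K t k).trace) -
          if ka = kb then ((2 : ℂ) ^ (l + 1))⁻¹ * (G t j * blk t).trace else 0 := by
    intro t j ka kb
    rw [← hE, ← hI, hY]
    simp [finalState, mul_sub, Finset.sum_sub_distrib]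
  -- the final state
  have hzero : ∀ t, ∑ j, ∑ ka : Fin (l + 1) → Bool, ∑ kb : Fin (l + 1) → Bool,
      sgn (ka, kb) j * (j.elim 0 fun k' => (Eff t ka kb * K t k').trace) = 0 := by
    intro t
    rw [Fintype.sum_option]
    simp only [Option.elim, mul_zero, Finset.sum_const_zero, zero_add]
    let w : (Fin (l + 1) → Bool) → (Fin (l + 1) → Bool) → ℂ :=
      fun k k' => if k 0 = k' 0 then 1 else 0
    cases side with
    | true =>
      simp only [if_true] at hKtr
      rw [← sim_cancel w (Eff t) (K t) _ (hKsum t) (hKtr t)]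
      simp [sgn, ob, rb, gb, w]
      congr!
    | false =>
      simp only [Bool.false_eq_true, if_false] at hKtr
      rw [← sim_cancel w (fun a b => Eff t b a) (K t) _ (hKsum t) (hKtr t)]
      refine Finset.sum_congr rfl fun k' _ => ?_
      rw [Finset.sum_comm]
      simp [sgn, ob, rb, gb, w]
      congr!
  -- the ideal state
  have hideal : ∀ t j, ∑ ka : Fin (l + 1) → Bool, ∑ kb : Fin (l + 1) → Bool,
      sgn (ka, kb) j * (if ka = kb then ((2 : ℂ) ^ (l + 1))⁻¹ * (G t j * blk t).trace else 0)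
      = (G t j * blk t).trace / 2 := by
    intro t j
    have hpt : ∀ ka, sgn (ka, ka) j = if ka 0 = !(gb j) then 1 else 0 := by
      intro ka
      cases side <;> cases h1 : ka 0 <;> cases h2 : gb j <;> simp [sgn, ob, rb, h1, h2]
    have hcount : ∑ ka : Fin (l + 1) → Bool, (if ka 0 = !(gb j) then (1 : ℂ) else 0)
        = (2 : ℂ) ^ l := by
      have := congrArg Complex.ofReal (sum_first_eq l (!(gb j)))
      simp only [Complex.ofReal_sum, apply_ite Complex.ofReal, Complex.ofReal_one,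
        Complex.ofReal_zero, Complex.ofReal_pow, Complex.ofReal_ofNat] at this
      rw [← this]
    simp only [mul_ite, mul_zero, Finset.sum_ite_eq, mem_univ, if_true, hpt, ← Finset.sum_mul,
      hcount]
    rw [pow_succ]
    have h2 : (2 : ℂ) ^ l ≠ 0 := pow_ne_zero _ two_ne_zero
    field_simp
  have hval : (test (true, false) * Y).trace - (test (false, true) * Y).trace = -(1 / 2) := by
    rw [hdiff]
    simp only [Fintype.sum_prod_type, hF, mul_sub, Finset.sum_sub_distrib]
    simp only [hzero, hideal, Finset.sum_const_zero, zero_sub, ← Finset.sum_div]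
    simp only [← trace_sum, ← Matrix.sum_mul, hG1, Matrix.one_mul]
    rw [show (∑ t, blk t).trace = 1 from by
      rw [← hσE.2]
      simp only [blk, Matrix.trace, diag_apply, Fintype.sum_prod_type, Matrix.sum_apply,
        submatrix_apply]
      exact Finset.sum_comm]
  have hn : (1 / 2 : ℝ) ≤ ‖(test (true, false) * Y).trace‖ + ‖(test (false, true) * Y).trace‖ := by
    refine le_trans (le_of_eq ?_) (norm_sub_le _ _)
    rw [hval]; norm_num
  refine hn.trans (le_of_eq_of_le ?_ (Finset.sum_le_sum_of_subset_of_nonneg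
    (Finset.subset_univ {(true, false), (false, true)}) fun i _ _ => norm_nonneg _))
  rw [Finset.sum_pair (by decide)]

lemma budget_linear {g : ℝ} (h0 : 0 ≤ g) {k : ℕ} (h : (k : ℝ) * g ≤ 1 / 2) :
    (1 + g) ^ k - 1 ≤ 2 * k * g := by
  induction k with
  | zero => simp
  | succ k ih =>
    push_cast at h ⊢
    have h' : (k : ℝ) * g ≤ 1 / 2 := by nlinarith
    have := mul_le_mul_of_nonneg_right (ih h') (by linarith : (0 : ℝ) ≤ 1 + g)
    rw [pow_succ]
    nlinarith

/-- Bounds on a block of a Werner state. -/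
lemma block_bounds {d : ℕ} (k : ℕ) {lam : ℝ} (hd : 0 < d) (h0 : 0 < lam) (h1 : lam < 1) :
    ∃ c : ℝ, 0 ≤ c ∧
      (pairSq (fun _ : Fin k => werner d lam)
        - ((c * (1 - ((1 + lam) ^ k - 1)) : ℝ) : ℂ) • 1).PosSemidef ∧
      (((c * (1 + ((1 + lam) ^ k - 1)) : ℝ) : ℂ) • 1
        - pairSq (fun _ : Fin k => werner d lam)).PosSemidef := by
  classical
  set c : ℝ := (((d : ℝ) * d - lam * d)⁻¹) ^ k with hc
  have hc0 : 0 ≤ c := pow_nonneg (inv_nonneg.mpr (norm_pos hd h1).le) _
  refine ⟨c, hc0, ?_⟩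
  rw [pairSq_werner, ← hc, ← sum_pow_card_nonempty k lam]
  set 𝒮 := (univ : Finset (Finset (Fin k))).erase ∅ with h𝒮
  have hone : flipSet d (∅ : Finset (Fin k)) = 1 := by simp [flipSet, pairSq_one]
  rw [← Finset.add_sum_erase _ _ (mem_univ (∅ : Finset (Fin k))), ← h𝒮]
  simp only [hone, Finset.card_empty, pow_zero, Complex.ofReal_one, one_smul]
  have hpow : ∀ S : Finset (Fin k), |(-lam) ^ S.card| ≤ lam ^ S.card := fun S => by
    rw [abs_pow, abs_neg, abs_of_pos h0]
  have hpm : ∀ S : Finset (Fin k), (1 + flipSet d S).PosSemidef ∧ (1 - flipSet d S).PosSemidef :=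
    fun S => psd_one_pm_of_involution (flipSet_isHermitian S) (flipSet_mul_self S)
  constructor
  · have : (c : ℂ) • ((1 : Matrix (Blk d k × Blk d k) (Blk d k × Blk d k) ℂ)
          + ∑ S ∈ 𝒮, (((-lam) ^ S.card : ℝ) : ℂ) • flipSet d S)
        - ((c * (1 - ∑ S ∈ 𝒮, lam ^ S.card) : ℝ) : ℂ) • 1
        = (c : ℂ) • ∑ S ∈ 𝒮, (((lam ^ S.card : ℝ) : ℂ) • (1 : Matrix (Blk d k × Blk d k) _ ℂ)
            + (((-lam) ^ S.card : ℝ) : ℂ) • flipSet d S) := by
      simp only [Finset.sum_add_distrib, ← Finset.sum_smul, ← Complex.ofReal_sum,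
        Complex.ofReal_mul, Complex.ofReal_sub, Complex.ofReal_one]
      module
    rw [this]
    exact psd_smul_real (posSemidef_sum _ fun S _ =>
      psd_affine (hpm S).1 (hpm S).2 (hpow S)) hc0
  · have : ((c * (1 + ∑ S ∈ 𝒮, lam ^ S.card) : ℝ) : ℂ) • 1
        - (c : ℂ) • ((1 : Matrix (Blk d k × Blk d k) (Blk d k × Blk d k) ℂ)
          + ∑ S ∈ 𝒮, (((-lam) ^ S.card : ℝ) : ℂ) • flipSet d S)
        = (c : ℂ) • ∑ S ∈ 𝒮, (((lam ^ S.card : ℝ) : ℂ) • (1 : Matrix (Blk d k × Blk d k) _ ℂ)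
            + ((-(-lam) ^ S.card : ℝ) : ℂ) • flipSet d S) := by
      simp only [Finset.sum_add_distrib, ← Finset.sum_smul, ← Complex.ofReal_sum,
        Complex.ofReal_mul, Complex.ofReal_add, Complex.ofReal_one, Complex.ofReal_neg, neg_smul,
        Finset.sum_neg_distrib]
      module
    rw [this]
    exact psd_smul_real (posSemidef_sum _ fun S _ =>
      psd_affine (hpm S).1 (hpm S).2 (by rw [abs_neg]; exact hpow S)) hc0

lemma kronecker_sum {A B κ : Type*} (s : Finset κ) (M : Matrix A A ℂ) (N : κ → Matrix B B ℂ) :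
    M ⊗ₖ (∑ x ∈ s, N x) = ∑ x ∈ s, M ⊗ₖ N x := by
  ext p q; simp [Matrix.sum_apply, Finset.mul_sum]

/-- Weakly entangled Werner states give no key bit under block-local announcements. -/
theorem werner_announce_zero_key (k d : ℕ) {lam : ℝ} (hd : 0 < d) (h0 : 0 < lam) (h1 : lam < 1)
    (hbud : 3 * ((1 + lam) ^ k - 1) ≤ 1)
    (e : Type) [Fintype e] [DecidableEq e] (ψ : Matrix (Fin d × Fin d) e ℂ)
    (hψ : ψ * ψᴴ = werner d lam) (N : ℕ) (sz : Fin N → ℕ) (hsz : ∀ i, sz i ≤ k) (side : Bool)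
    (l : ℕ) (hl : 1 ≤ l) (T : Type) [Fintype T] [DecidableEq T]
    (Eff : T → (Fin l → Bool) → (Fin l → Bool) →
      Matrix (Sys d sz × Sys d sz) (Sys d sz × Sys d sz) ℂ)
    (hP : LocalAnnounce sz side Eff) (σE : Matrix (T × EveSys e sz) (T × EveSys e sz) ℂ)
    (hσE : IsState σE) :
    1 / 2 ≤ traceNorm (finalState (purifPow ψ sz) Eff - idealState σE) := by
  classical
  obtain ⟨l, rfl⟩ : ∃ l', l = l' + 1 := ⟨l - 1, by omega⟩
  obtain ⟨W, hWH, hW⟩ := werner_inv hd h0.le h1
  set Rn : Matrix (Sys d sz × Sys d sz) (Sys d sz × Sys d sz) ℂ :=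
    pairSq fun i => pairSq fun _ : Fin (sz i) => werner d lam with hRn
  have hΨ : purifPow ψ sz * (purifPow ψ sz)ᴴ = Rn := by
    have : purifPow ψ sz = pairMat fun i => pairMat fun _ : Fin (sz i) => ψ := rfl
    rw [this, pairMat_mul_conjTranspose]
    simp only [pairMat_mul_conjTranspose, hψ, hRn]
  have hsw : Rn.submatrix Prod.swap Prod.swap = Rn := by
    rw [hRn, pairSq_swap]; simp only [pairSq_swap, werner_swap]
  refine far_from_ideal_sim (purifPow ψ sz)
    (Ri := pairSq fun i => pairSq fun _ : Fin (sz i) => W)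
    (pairSq_isHermitian fun i => pairSq_isHermitian fun _ => hWH) ?_ Eff side (fun t => ?_) σE hσE
  · rw [hΨ, hRn, pairSq_mul]
    simp only [pairSq_mul, hW, pairSq_one]
  obtain ⟨F, R, b, hF, hR, hb, hsum, hEff⟩ := hP
  obtain ⟨K, hK, hKsum, hKtr⟩ :=
    exists_sim (ρ := fun i => pairSq fun _ : Fin (sz i) => werner d lam) (fun i => by
      obtain ⟨c, hc, hl', hh⟩ := block_bounds (sz i) hd h0 h1
      refine ⟨c, _, hc, ?_, hl', hh⟩
      refine le_trans ?_ hbud
      have := pow_le_pow_right₀ (by linarith : (1 : ℝ) ≤ 1 + lam) (hsz i)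
      linarith)
      (fun i => pairSq_psd fun _ => (werner_isState hd h0.le h1).1) (hR t) (hb t) (hsum t)
  cases side with
  | true =>
    refine ⟨K, hK, hKsum.trans hΨ.symm, fun k k' => ?_⟩
    simp only [if_true] at hEff ⊢
    simp only [hEff]
    rw [← kronecker_sum, hsum t, hΨ]
    exact hKtr k' (F t k)
  | false =>
    refine ⟨fun k => (K k).submatrix Prod.swap Prod.swap, fun k => (hK k).submatrix _, ?_,
      fun k k' => ?_⟩
    · rw [hΨ, ← hsw, hRn, ← hKsum]
      ext p q; simp [Matrix.sum_apply]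
    · simp only [Bool.false_eq_true, if_false] at hEff ⊢
      simp only [hEff]
      rw [← sum_kronecker, hsum t, hΨ, trace_mul_submatrix_swap,
        trace_mul_submatrix_swap (F t k) (R t k'), submatrix_submatrix, Prod.swap_swap_eq,
        submatrix_id_id, hsw]
      exact hKtr k' (F t k)

end Vale.Agent.P372
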