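import Vale.Agent.P372.Defs

/-! Generic matrix lemmas for P372. -/

namespace Vale.Agent.P372

open Matrix Finset
open scoped Kronecker ComplexOrder MatrixOrder

variable {n m : Type*} [Fintype n] [Fintype m]

lemma psd_factor [DecidableEq n] {G : Matrix n n ℂ} (h : G.PosSemidef) :
    ∃ L : Matrix n n ℂ, G = Lᴴ * L := by
  obtain ⟨L, hL⟩ := CStarAlgebra.nonneg_iff_eq_star_mul_self.mp h.nonneg
  exact ⟨L, hL⟩

lemma trace_mul_psd_nonneg [DecidableEq n] {A B : Matrix n n ℂ} (hA : A.PosSemidef)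
    (hB : B.PosSemidef) : 0 ≤ (A * B).trace := by
  obtain ⟨L, rfl⟩ := psd_factor hA
  rw [Matrix.mul_assoc, Matrix.trace_mul_comm]
  exact (hB.mul_mul_conjTranspose_same L).trace_nonneg

lemma trace_mul_psd_re_nonneg [DecidableEq n] {A B : Matrix n n ℂ} (hA : A.PosSemidef)
    (hB : B.PosSemidef) : 0 ≤ (A * B).trace.re :=
  (Complex.le_def.mp (trace_mul_psd_nonneg hA hB)).1

lemma psd_smul_real {A : Matrix n n ℂ} (hA : A.PosSemidef) {c : ℝ} (hc : 0 ≤ c) :
    ((c : ℂ) • A).PosSemidef :=
  hA.smul (by exact_mod_cast hc)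

lemma trace_ofReal {A : Matrix n n ℂ} (hA : A.PosSemidef) : A.trace = (A.trace.re : ℂ) := by
  have h := Complex.le_def.mp hA.trace_nonneg
  apply Complex.ext
  · simp
  · simpa using h.2.symm

/-- A testing POVM gives a lower bound on the trace norm. -/
lemma sum_trace_mul_le_traceNorm [DecidableEq n] {ι : Type*} [Fintype ι]
    (G : ι → Matrix n n ℂ) (hG : ∀ i, (G i).PosSemidef) (hsum : ∑ i, G i = 1)
    (X : Matrix n n ℂ) : ∑ i, ‖(G i * X).trace‖ ≤ traceNorm X := by
  classical
  choose L hL using fun i => psd_factor (hG i)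
  set hH := Matrix.isHermitian_conjTranspose_mul_self X
  set U : Matrix n n ℂ := (hH.eigenvectorUnitary : Matrix n n ℂ) with hU
  have hUU : U * Uᴴ = 1 := Unitary.coe_mul_star_self hH.eigenvectorUnitary
  have hUU' : Uᴴ * U = 1 := Unitary.coe_star_mul_self hH.eigenvectorUnitary
  have hdiag : (X * U)ᴴ * (X * U) = diagonal (fun k => (hH.eigenvalues k : ℂ)) := by
    have h := hH.conjStarAlgAut_star_eigenvectorUnitary
    rw [Unitary.conjStarAlgAut_apply] at h
    simp only [Unitary.coe_star, star_star, star_eq_conjTranspose] at h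
    rw [conjTranspose_mul]
    simpa [Matrix.mul_assoc, hU, Function.comp_def] using h
  have key : ∀ i, (G i * X).trace = ((L i * U)ᴴ * (L i * (X * U))).trace := by
    intro i
    calc (G i * X).trace = (((L i)ᴴ * L i * X) * (U * Uᴴ)).trace := by
          rw [hUU, Matrix.mul_one, ← hL i]
      _ = (((L i)ᴴ * L i * X * U) * Uᴴ).trace := by simp only [Matrix.mul_assoc]
      _ = (Uᴴ * ((L i)ᴴ * L i * X * U)).trace := Matrix.trace_mul_comm _ _
      _ = _ := by simp only [conjTranspose_mul, Matrix.mul_assoc]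
  have colA : ∀ (Y : Matrix n n ℂ) (k : n),
      ∑ i, ∑ j, ‖(L i * Y) j k‖ ^ 2 = ((Yᴴ * Y) k k).re := by
    intro Y k
    have h1 : Yᴴ * Y = ∑ i, (L i * Y)ᴴ * (L i * Y) := by
      calc Yᴴ * Y = Yᴴ * (∑ i, G i) * Y := by rw [hsum, Matrix.mul_one]
        _ = ∑ i, Yᴴ * G i * Y := by rw [Matrix.mul_sum, Matrix.sum_mul]
        _ = _ := Finset.sum_congr rfl fun i _ => by
            rw [hL i, conjTranspose_mul]; simp only [Matrix.mul_assoc]
    rw [h1, Matrix.sum_apply, Complex.re_sum]
    refine Finset.sum_congr rfl fun i _ => ?_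
    rw [Matrix.mul_apply, Complex.re_sum]
    refine Finset.sum_congr rfl fun j _ => ?_
    rw [conjTranspose_apply, Complex.sq_norm, Complex.normSq_apply]
    simp [Complex.mul_re]
  calc ∑ i, ‖(G i * X).trace‖
      ≤ ∑ i, ∑ k, ∑ j, ‖(L i * U) j k‖ * ‖(L i * (X * U)) j k‖ := by
        refine Finset.sum_le_sum fun i _ => ?_
        rw [key i, Matrix.trace]
        refine (norm_sum_le _ _).trans (Finset.sum_le_sum fun k _ => ?_)
        rw [diag_apply, Matrix.mul_apply]
        refine (norm_sum_le _ _).trans (le_of_eq (Finset.sum_congr rfl fun j _ => ?_))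
        rw [norm_mul, conjTranspose_apply, norm_star]
    _ = ∑ k, ∑ p : ι × n, ‖(L p.1 * U) p.2 k‖ * ‖(L p.1 * (X * U)) p.2 k‖ := by
        rw [Finset.sum_comm]
        simp_rw [Fintype.sum_prod_type]
    _ ≤ traceNorm X := by
        refine Finset.sum_le_sum fun k _ => ?_
        refine (Real.sum_mul_le_sqrt_mul_sqrt _ _ _).trans (le_of_eq ?_)
        simp_rw [Fintype.sum_prod_type, colA, hUU', hdiag]
        simp

lemma psd_smul_one_sub [DecidableEq n] {Y : Matrix n n ℂ} (hY : Y.IsHermitian) (c : ℝ)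
    (h : ∀ k, hY.eigenvalues k ≤ c) : ((c : ℂ) • (1 : Matrix n n ℂ) - Y).PosSemidef := by
  set U : Matrix n n ℂ := (hY.eigenvectorUnitary : Matrix n n ℂ) with hU
  have hUU : U * Uᴴ = 1 := Unitary.coe_mul_star_self hY.eigenvectorUnitary
  have hs := hY.spectral_theorem
  rw [Unitary.conjStarAlgAut_apply] at hs
  have : (c : ℂ) • (1 : Matrix n n ℂ) - Y
      = U * diagonal (fun k => (((c - hY.eigenvalues k : ℝ)) : ℂ)) * Uᴴ := by
    conv_lhs => rw [hs, ← hUU]
    have : diagonal (fun k => (((c - hY.eigenvalues k : ℝ)) : ℂ))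
        = (c : ℂ) • (1 : Matrix n n ℂ) - diagonal (RCLike.ofReal ∘ hY.eigenvalues) := by
      ext i j
      by_cases hij : i = j <;> simp [hij]
    rw [this, Matrix.mul_sub, Matrix.sub_mul, Matrix.mul_smul, Matrix.mul_one, Matrix.smul_mul,
      star_eq_conjTranspose]
  rw [this]
  refine (PosSemidef.diagonal fun k => ?_).mul_mul_conjTranspose_same U
  simp only [Pi.zero_apply]
  exact_mod_cast sub_nonneg.mpr (h k)

lemma psd_trace_smul_one_sub [DecidableEq n] {Y : Matrix n n ℂ} (hY : Y.PosSemidef) :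
    ((Y.trace.re : ℂ) • (1 : Matrix n n ℂ) - Y).PosSemidef := by
  refine psd_smul_one_sub hY.1 _ fun k => ?_
  have : Y.trace.re = ∑ i, hY.1.eigenvalues i := by
    rw [hY.1.trace_eq_sum_eigenvalues]; simp
  rw [this]
  exact Finset.single_le_sum (fun i _ => hY.eigenvalues_nonneg i) (mem_univ k)

lemma trace_mul_self_eq_sum [DecidableEq n] {Y : Matrix n n ℂ} (hY : Y.IsHermitian) :
    (Y * Y).trace = ((∑ k, hY.eigenvalues k ^ 2 : ℝ) : ℂ) := by
  set U : Matrix n n ℂ := (hY.eigenvectorUnitary : Matrix n n ℂ) with hU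
  have hUU' : Uᴴ * U = 1 := Unitary.coe_star_mul_self hY.eigenvectorUnitary
  have hs : Y = U * diagonal (RCLike.ofReal ∘ hY.eigenvalues) * Uᴴ := by
    simpa [Unitary.conjStarAlgAut_apply, star_eq_conjTranspose] using hY.spectral_theorem
  set D := diagonal (RCLike.ofReal (K := ℂ) ∘ hY.eigenvalues)
  calc (Y * Y).trace = (U * (D * (Uᴴ * U) * D) * Uᴴ).trace := by
        conv_lhs => rw [hs]
        simp only [Matrix.mul_assoc]
    _ = (Uᴴ * U * (D * D)).trace := by
        rw [hUU', Matrix.mul_one, Matrix.trace_mul_comm, ← Matrix.mul_assoc, hUU']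
    _ = _ := by
        rw [hUU', Matrix.one_mul, diagonal_mul_diagonal, trace_diagonal]
        simp [pow_two]

lemma psd_one_add_sub_of_trace_sq_le [DecidableEq n] {Y : Matrix n n ℂ} (hY : Y.IsHermitian)
    (h : (Y * Y).trace.re ≤ 1) : (1 + Y).PosSemidef ∧ (1 - Y).PosSemidef := by
  have hsq : ∀ {Z : Matrix n n ℂ} (hZ : Z.IsHermitian), (Z * Z).trace.re ≤ 1 →
      (1 - Z).PosSemidef := by
    intro Z hZ hle
    have := psd_smul_one_sub hZ 1 fun k => ?_
    · simpa using this
    · rw [trace_mul_self_eq_sum hZ, Complex.ofReal_re] at hle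
      have h1 : hZ.eigenvalues k ^ 2 ≤ 1 :=
        le_trans (Finset.single_le_sum (f := fun i => hZ.eigenvalues i ^ 2)
          (fun i _ => sq_nonneg _) (mem_univ k)) hle
      nlinarith
  refine ⟨?_, hsq hY h⟩
  have := hsq hY.neg (by simpa using h)
  simpa using this

/-- Product distributions are far from one perfectly correlated uniform bit. -/
lemma product_far_from_bit {a b : Bool → ℝ} (ha : ∀ u, 0 ≤ a u) (hb : ∀ u, 0 ≤ b u) (q : ℝ) :
    q / 2 ≤ ∑ u, ∑ v, |a u * b v - if u = v then q / 2 else 0| := by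
  simp only [Fintype.sum_bool, if_true, Bool.false_eq_true, if_false, Bool.true_eq_false,
    sub_zero]
  set p := a true * b true
  set r := a false * b false
  have hp : 0 ≤ p := mul_nonneg (ha _) (hb _)
  have hr : 0 ≤ r := mul_nonneg (ha _) (hb _)
  have hx : 0 ≤ a true * b false := mul_nonneg (ha _) (hb _)
  have hy : 0 ≤ a false * b true := mul_nonneg (ha _) (hb _)
  have hxy : (a true * b false) * (a false * b true) = p * r := by ring
  rw [abs_of_nonneg hx, abs_of_nonneg hy]
  have h1 := neg_abs_le (p - q / 2)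
  have h2 := neg_abs_le (r - q / 2)
  have h3 := abs_nonneg (p - q / 2)
  have h4 := abs_nonneg (r - q / 2)
  rcases le_total p r with hpr | hpr
  · have : p ≤ a true * b false + a false * b true := by
      nlinarith [sq_nonneg (a true * b false - a false * b true)]
    linarith
  · have : r ≤ a true * b false + a false * b true := by
      nlinarith [sq_nonneg (a true * b false - a false * b true)]
    linarith

end Vale.Agent.P372
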