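import Vale.Agent.P372.Prod

/-! The exact decomposition of a block of a Werner state, adapted to one block measurement. -/

namespace Vale.Agent.P372

open Matrix Finset
open scoped Kronecker ComplexOrder

variable {d k : ℕ}

/-- Block labels. -/
abbrev Blk (d k : ℕ) : Type := Fin k → Fin d

lemma one_prod_apply {A B : Type*} [DecidableEq A] [DecidableEq B] (p q : A × B) :
    (1 : Matrix (A × B) (A × B) ℂ) p q = (1 : Matrix A A ℂ) p.1 q.1 * (1 : Matrix B B ℂ) p.2 q.2 := by
  rw [← one_kronecker_one, kroneckerMap_apply]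

lemma sum_kronecker {A B κ : Type*} (s : Finset κ) (M : κ → Matrix A A ℂ) (N : Matrix B B ℂ) :
    (∑ x ∈ s, M x) ⊗ₖ N = ∑ x ∈ s, M x ⊗ₖ N := by
  ext p q; simp [Matrix.sum_apply, Finset.sum_mul]

/-- The swap operator. -/
def flipOp (d : ℕ) : Matrix (Fin d × Fin d) (Fin d × Fin d) ℂ :=
  Matrix.of fun p q => if p.1 = q.2 ∧ p.2 = q.1 then 1 else 0

/-- Partial swap on the copies in `S`. -/
def flipSet (d : ℕ) {k : ℕ} (S : Finset (Fin k)) :
    Matrix (Blk d k × Blk d k) (Blk d k × Blk d k) ℂ :=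
  pairSq fun l => if l ∈ S then flipOp d else 1

/-- Splitting a block label along `S`. -/
abbrev splitEq (d : ℕ) {k : ℕ} (S : Finset (Fin k)) :
    Blk d k ≃ ({l // l ∈ S} → Fin d) × ({l // l ∉ S} → Fin d) :=
  Equiv.piEquivPiSubtypeProd (fun l => l ∈ S) fun _ => Fin d

/-- Partial trace over the copies outside `S`. -/
def partTr (S : Finset (Fin k)) (M : Matrix (Blk d k) (Blk d k) ℂ) :
    Matrix ({l // l ∈ S} → Fin d) ({l // l ∈ S} → Fin d) ℂ :=
  ∑ c : {l // l ∉ S} → Fin d,
    M.submatrix (fun u => (splitEq d S).symm (u, c)) (fun u => (splitEq d S).symm (u, c))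

/-- Extension by the identity outside `S`. -/
def embS (S : Finset (Fin k)) (X : Matrix ({l // l ∈ S} → Fin d) ({l // l ∈ S} → Fin d) ℂ) :
    Matrix (Blk d k) (Blk d k) ℂ :=
  (X ⊗ₖ (1 : Matrix ({l // l ∉ S} → Fin d) ({l // l ∉ S} → Fin d) ℂ)).submatrix
    (splitEq d S) (splitEq d S)

section embS

variable {S : Finset (Fin k)}

lemma partTr_psd {M : Matrix (Blk d k) (Blk d k) ℂ} (h : M.PosSemidef) :
    (partTr S M).PosSemidef :=
  posSemidef_sum _ fun _ _ => h.submatrix _

lemma partTr_isHermitian {M : Matrix (Blk d k) (Blk d k) ℂ} (h : M.IsHermitian) :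
    (partTr S M).IsHermitian := by
  simp [partTr, Matrix.IsHermitian, conjTranspose_sum, conjTranspose_submatrix, h.eq]

lemma trace_partTr (M : Matrix (Blk d k) (Blk d k) ℂ) : (partTr S M).trace = M.trace := by
  simp only [partTr, Matrix.trace, diag_apply, Matrix.sum_apply, submatrix_apply]
  rw [← Equiv.sum_comp (splitEq d S).symm, Fintype.sum_prod_type]

lemma partTr_zero : partTr S (0 : Matrix (Blk d k) (Blk d k) ℂ) = 0 := by
  simp [partTr]

lemma embS_one : embS S (1 : Matrix ({l // l ∈ S} → Fin d) _ ℂ) = 1 := by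
  rw [embS, one_kronecker_one, submatrix_one_equiv]

lemma embS_add (X Y : Matrix ({l // l ∈ S} → Fin d) ({l // l ∈ S} → Fin d) ℂ) :
    embS S (X + Y) = embS S X + embS S Y := by
  ext a b; simp [embS, add_mul]

lemma embS_sub (X Y : Matrix ({l // l ∈ S} → Fin d) ({l // l ∈ S} → Fin d) ℂ) :
    embS S (X - Y) = embS S X - embS S Y := by
  ext a b; simp [embS, sub_mul]

lemma embS_smul (c : ℂ) (X : Matrix ({l // l ∈ S} → Fin d) ({l // l ∈ S} → Fin d) ℂ) :
    embS S (c • X) = c • embS S X := by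
  ext a b; simp [embS, mul_assoc]

lemma embS_zero : embS S (0 : Matrix ({l // l ∈ S} → Fin d) _ ℂ) = 0 := by
  ext a b; simp [embS]

lemma embS_sum {κ : Type*} (s : Finset κ)
    (X : κ → Matrix ({l // l ∈ S} → Fin d) ({l // l ∈ S} → Fin d) ℂ) :
    embS S (∑ i ∈ s, X i) = ∑ i ∈ s, embS S (X i) := by
  ext a b; simp [embS, Matrix.sum_apply, Finset.sum_mul]

lemma embS_psd {X : Matrix ({l // l ∈ S} → Fin d) ({l // l ∈ S} → Fin d) ℂ}
    (h : X.PosSemidef) : (embS S X).PosSemidef :=
  (h.kronecker PosSemidef.one).submatrix _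

lemma trace_mul_embS (M : Matrix (Blk d k) (Blk d k) ℂ)
    (X : Matrix ({l // l ∈ S} → Fin d) ({l // l ∈ S} → Fin d) ℂ) :
    (M * embS S X).trace = (partTr S M * X).trace := by
  simp only [Matrix.trace, diag_apply, Matrix.mul_apply, partTr, Matrix.sum_apply,
    submatrix_apply, Finset.sum_mul]
  rw [← Equiv.sum_comp (splitEq d S).symm, Fintype.sum_prod_type]
  refine Finset.sum_congr rfl fun u _ => ?_
  refine Finset.sum_congr rfl fun c _ => ?_
  rw [← Equiv.sum_comp (splitEq d S).symm, Fintype.sum_prod_type]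
  refine Finset.sum_congr rfl fun u' _ => ?_
  simp [embS, Matrix.one_apply]

lemma steer_flipSet (M : Matrix (Blk d k) (Blk d k) ℂ) :
    steer M (flipSet d S) = embS S (partTr S M) := by
  have cond : ∀ (b b' : Blk d k) (p q : ({l // l ∈ S} → Fin d) × ({l // l ∉ S} → Fin d)),
      (flipSet d S) ((splitEq d S).symm p, b) ((splitEq d S).symm q, b')
        = if p.1 = (splitEq d S b').1 ∧ q.1 = (splitEq d S b).1 ∧ p.2 = q.2 ∧
            (splitEq d S b).2 = (splitEq d S b').2 then 1 else 0 := by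
    intro b b' p q
    have hh : ∀ l, (if l ∈ S then flipOp d else 1)
        ((splitEq d S).symm p l, b l) ((splitEq d S).symm q l, b' l)
        = if ((∀ h : l ∈ S, p.1 ⟨l, h⟩ = b' l ∧ b l = q.1 ⟨l, h⟩) ∧
            (∀ h : l ∉ S, p.2 ⟨l, h⟩ = q.2 ⟨l, h⟩ ∧ b l = b' l)) then (1 : ℂ) else 0 := by
      intro l
      by_cases hl : l ∈ S
      · simp [hl, flipOp, Equiv.piEquivPiSubtypeProd]
      · simp [hl, Matrix.one_apply, Equiv.piEquivPiSubtypeProd]
    simp only [flipSet, pairSq, piMat, submatrix_apply, of_apply]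
    simp only [hh]
    split_ifs with h
    · obtain ⟨h1, h2, h3, h4⟩ := h
      refine Finset.prod_eq_one fun l _ => if_pos ?_
      exact ⟨fun hl => ⟨congrFun h1 ⟨l, hl⟩, (congrFun h2 ⟨l, hl⟩).symm⟩,
        fun hl => ⟨congrFun h3 ⟨l, hl⟩, congrFun h4 ⟨l, hl⟩⟩⟩
    · refine Finset.prod_eq_zero_iff.mpr ?_
      by_contra hne
      simp only [mem_univ, true_and, not_exists, ite_eq_right_iff, one_ne_zero, imp_false,
        not_not] at hne
      exact h ⟨funext fun l => ((hne l.1).1 l.2).1, funext fun l => (((hne l.1).1 l.2).2).symm,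
        funext fun l => ((hne l.1).2 l.2).1, funext fun l => ((hne l.1).2 l.2).2⟩
  ext b b'
  simp only [steer, of_apply]
  rw [← Equiv.sum_comp (splitEq d S).symm]
  simp only [← Equiv.sum_comp (splitEq d S).symm (fun a' => M a' _ * _), cond,
    Fintype.sum_prod_type]
  have hr : embS S (partTr S M) b b'
      = if (splitEq d S b).2 = (splitEq d S b').2
        then partTr S M (splitEq d S b).1 (splitEq d S b').1 else 0 := by
    simp only [embS, submatrix_apply, kroneckerMap_apply, Matrix.one_apply, mul_ite, mul_one,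
      mul_zero]
  rw [hr]
  by_cases h : (splitEq d S b).2 = (splitEq d S b').2
  · simp only [h, and_true, mul_ite, mul_one, mul_zero, ite_and, Finset.sum_ite_eq',
      Finset.sum_ite_eq, mem_univ, if_true, Finset.sum_const_zero,
      Finset.sum_ite_irrel, partTr, Matrix.sum_apply, submatrix_apply]
  · simp only [h, and_false, if_false, mul_zero, Finset.sum_const_zero]

end embS

lemma flipSet_isHermitian (S : Finset (Fin k)) : (flipSet d S).IsHermitian := by
  ext p q
  simp only [conjTranspose_apply, flipSet, pairSq, piMat, submatrix_apply, of_apply, star_prod]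
  refine Finset.prod_congr rfl fun l _ => ?_
  by_cases hl : l ∈ S
  · simp [hl, flipOp, and_comm, eq_comm, apply_ite (star : ℂ → ℂ)]
  · simp [hl, Matrix.one_apply, eq_comm, and_comm, apply_ite (star : ℂ → ℂ)]

lemma flipOp_mul_self : flipOp d * flipOp d = 1 := by
  ext ⟨a, b⟩ ⟨a', b'⟩
  simp [flipOp, Matrix.mul_apply, Fintype.sum_prod_type, Matrix.one_apply, ite_and]

lemma flipSet_mul_self (S : Finset (Fin k)) : flipSet d S * flipSet d S = 1 := by
  rw [flipSet, pairSq_mul]
  have h : (fun l => (if l ∈ S then flipOp d else 1) * if l ∈ S then flipOp d else 1)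
      = fun _ : Fin k => (1 : Matrix (Fin d × Fin d) (Fin d × Fin d) ℂ) := by
    funext l; by_cases hl : l ∈ S <;> simp [hl, flipOp_mul_self]
  rw [h, pairSq_one]

lemma psd_one_pm_of_involution {n : Type*} [Fintype n] [DecidableEq n] {F : Matrix n n ℂ}
    (hF : F.IsHermitian) (h2 : F * F = 1) : (1 + F).PosSemidef ∧ (1 - F).PosSemidef := by
  constructor
  · have : 1 + F = ((1 / 2 : ℝ) : ℂ) • ((1 + F)ᴴ * (1 + F)) := by
      rw [conjTranspose_add, conjTranspose_one, hF.eq, add_mul, mul_add, mul_add, h2]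
      simp only [mul_one, one_mul]
      push_cast; module
    rw [this]; exact psd_smul_real (posSemidef_conjTranspose_mul_self _) (by norm_num)
  · have : 1 - F = ((1 / 2 : ℝ) : ℂ) • ((1 - F)ᴴ * (1 - F)) := by
      rw [conjTranspose_sub, conjTranspose_one, hF.eq, sub_mul, mul_sub, mul_sub, h2]
      simp only [mul_one, one_mul]
      push_cast; module
    rw [this]; exact psd_smul_real (posSemidef_conjTranspose_mul_self _) (by norm_num)

lemma psd_affine {n : Type*} [Fintype n] [DecidableEq n] {Y : Matrix n n ℂ}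
    (hp : (1 + Y).PosSemidef) (hm : (1 - Y).PosSemidef) {g e : ℝ} (he : |e| ≤ g) :
    ((g : ℂ) • (1 : Matrix n n ℂ) + (e : ℂ) • Y).PosSemidef := by
  have h := abs_le.mp he
  have : (g : ℂ) • (1 : Matrix n n ℂ) + (e : ℂ) • Y
      = (((g + e) / 2 : ℝ) : ℂ) • (1 + Y) + (((g - e) / 2 : ℝ) : ℂ) • (1 - Y) := by
    push_cast; module
  rw [this]
  exact (psd_smul_real hp (by linarith)).add (psd_smul_real hm (by linarith))

/-- An orthogonal family, with norms at most one, reproducing finitely many Hermitian matrices. -/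
lemma exists_orth_family {n : Type*} [Fintype n] [DecidableEq n] {o : ℕ}
    (N : Fin o → Matrix n n ℂ) (hN : ∀ x, (N x).IsHermitian) :
    ∃ X : Fin o → Matrix n n ℂ, (∀ i, (X i).IsHermitian) ∧ (∀ i, (X i * X i).trace.re ≤ 1) ∧
      ∀ y, N y = ∑ i, (N y * X i).trace • X i := by
  classical
  set G : Matrix (Fin o) (Fin o) ℝ := Matrix.of fun x y => (N x * N y).trace.re with hG
  have hGtr : ∀ x y, (N x * N y).trace = (G x y : ℂ) := by
    intro x y
    have : star ((N x * N y).trace) = (N x * N y).trace := by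
      rw [← trace_conjTranspose, conjTranspose_mul, (hN x).eq, (hN y).eq, trace_mul_comm]
    have him := congrArg Complex.im this
    simp only [Complex.star_def, Complex.conj_im] at him
    apply Complex.ext
    · simp [hG]
    · simp only [Complex.ofReal_im]; linarith
  have hGH : G.IsHermitian := by
    ext x y; simp [hG, trace_mul_comm (N x) (N y)]
  set U : Matrix (Fin o) (Fin o) ℝ := (hGH.eigenvectorUnitary : Matrix (Fin o) (Fin o) ℝ) with hU
  set g := hGH.eigenvalues with hg
  have hUU : U * Uᵀ = 1 := by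
    have := Unitary.coe_mul_star_self hGH.eigenvectorUnitary
    simpa [star_eq_conjTranspose, conjTranspose_eq_transpose_of_trivial] using this
  have hUU' : Uᵀ * U = 1 := by
    have := Unitary.coe_star_mul_self hGH.eigenvectorUnitary
    simpa [star_eq_conjTranspose, conjTranspose_eq_transpose_of_trivial] using this
  have hdiag : Uᵀ * G * U = diagonal g := by
    have := hGH.conjStarAlgAut_star_eigenvectorUnitary
    simpa [Unitary.conjStarAlgAut_apply, star_eq_conjTranspose,
      conjTranspose_eq_transpose_of_trivial, Function.comp_def, hU, hg] using this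
  set v : Fin o → Matrix n n ℂ := fun i => ∑ x, (U x i : ℂ) • N x with hv
  have hvH : ∀ i, (v i).IsHermitian := by
    intro i; simp [Matrix.IsHermitian, hv, conjTranspose_sum, conjTranspose_smul, (hN _).eq]
  have hNv : ∀ y, N y = ∑ i, (U y i : ℂ) • v i := by
    intro y
    simp only [hv, Finset.smul_sum, smul_smul]
    rw [Finset.sum_comm]
    simp only [← Finset.sum_smul, ← Complex.ofReal_mul, ← Complex.ofReal_sum]
    have : ∀ x, ∑ i, U y i * U x i = (1 : Matrix (Fin o) (Fin o) ℝ) y x := by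
      intro x; rw [← hUU]; simp [Matrix.mul_apply]
    simp [this, Matrix.one_apply, ite_smul]
  have hNvtr : ∀ y i, (N y * v i).trace = ((g i * U y i : ℝ) : ℂ) := by
    intro y i
    have : (G * U) y i = g i * U y i := by
      have h2 : G * U = U * diagonal g := by
        rw [← hdiag, ← Matrix.mul_assoc, ← Matrix.mul_assoc, hUU, Matrix.one_mul]
      rw [h2, mul_diagonal]; ring
    rw [← this]
    simp [hv, Matrix.mul_sum, trace_sum, hGtr, Matrix.mul_apply, mul_comm]
  have hvv : ∀ i, (v i * v i).trace = ((g i : ℝ) : ℂ) := by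
    intro i
    have h1 : ∑ x, U x i * U x i = 1 := by
      have := congrFun (congrFun hUU' i) i
      simpa [Matrix.mul_apply] using this
    calc (v i * v i).trace = ∑ x, (U x i : ℂ) * (N x * v i).trace := by
          conv_lhs => arg 1; arg 1; simp only [hv]
          simp [Matrix.sum_mul, trace_sum]
      _ = ((g i * ∑ x, U x i * U x i : ℝ) : ℂ) := by
          simp only [hNvtr]; push_cast; rw [Finset.mul_sum]
          exact Finset.sum_congr rfl fun x _ => by ring
      _ = _ := by rw [h1, mul_one]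
  have hg0 : ∀ i, 0 ≤ g i := by
    intro i
    have h := (posSemidef_conjTranspose_mul_self (v i)).trace_nonneg
    rw [(hvH i).eq, hvv i] at h
    exact_mod_cast h
  refine ⟨fun i => (((Real.sqrt (g i))⁻¹ : ℝ) : ℂ) • v i, fun i => ?_, fun i => ?_, fun y => ?_⟩
  · simp [Matrix.IsHermitian, conjTranspose_smul, (hvH i).eq]
  · simp only [smul_mul_smul_comm, trace_smul, hvv, smul_eq_mul, ← Complex.ofReal_mul,
      Complex.ofReal_re, ← mul_inv, Real.mul_self_sqrt (hg0 i)]
    exact inv_mul_le_one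
  · conv_lhs => rw [hNv y]
    refine Finset.sum_congr rfl fun i _ => ?_
    simp only [Matrix.mul_smul, trace_smul, hNvtr, smul_smul, smul_eq_mul]
    rcases eq_or_lt_of_le (hg0 i) with h | h
    · have hz : v i = 0 := by
        rw [← trace_conjTranspose_mul_self_eq_zero_iff, (hvH i).eq, hvv i, ← h]; simp
      simp [hz]
    · congr 1
      have hs : Real.sqrt (g i) * Real.sqrt (g i) = g i := Real.mul_self_sqrt h.le
      have hne : Real.sqrt (g i) ≠ 0 := (Real.sqrt_pos.mpr h).ne'
      norm_cast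
      field_simp
      rw [sq, hs]

/-- Data of a decomposition of `R` in which the measurement `M` is uncorrelated in every term. -/
def Uncorr {P : Type*} [Fintype P] {o : ℕ} (M : Fin o → Matrix P P ℂ)
    (R : Matrix (P × P) (P × P) ℂ) : Prop :=
  ∃ (J : Type) (_ : Fintype J) (σ : J → Matrix (P × P) (P × P) ℂ) (r : J → Fin o → ℝ)
    (β : J → Matrix P P ℂ), (∀ j, (σ j).PosSemidef) ∧ (∀ j x, 0 ≤ r j x) ∧
      (∀ j, (β j).PosSemidef) ∧ (∀ j x, steer (M x) (σ j) = (r j x : ℂ) • β j) ∧ ∑ j, σ j = R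

lemma trace_mul_eq_zero_of_proj {P : Type*} [Fintype P] [DecidableEq P] {o : ℕ}
    {M : Fin o → Matrix P P ℂ} (hM : ∀ x, (M x).PosSemidef) (h1 : ∑ x, M x = 1)
    (hp : ∀ x, M x * M x = M x) {x y : Fin o} (hxy : x ≠ y) : (M y * M x).trace = 0 := by
  have hs : ∑ z ∈ univ.erase y, (M y * M z).trace = 0 := by
    have : ∑ z, (M y * M z).trace = (M y * M y).trace := by
      rw [← trace_sum, ← Matrix.mul_sum, h1, Matrix.mul_one, hp]
    rw [← Finset.add_sum_erase _ _ (mem_univ y)] at this
    exact add_eq_left.mp this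
  exact (Finset.sum_eq_zero_iff_of_nonneg fun z _ => trace_mul_psd_nonneg (hM y) (hM z)).mp hs x
    (mem_erase.mpr ⟨hxy, mem_univ _⟩)

/-- Pieces producing the steering of one partial swap. -/
lemma exists_pieces {m o : ℕ} {M : Fin o → Matrix (Blk d k) (Blk d k) ℂ}
    (hM : AllowedMeas m M) (S : Finset (Fin k)) {g e : ℝ} (hg : 0 < g) (he : |e| ≤ g) :
    ∃ (q : ℝ) (J : Type) (_ : Fintype J)
      (σ : J → Matrix (Blk d k × Blk d k) (Blk d k × Blk d k) ℂ) (r : J → Fin o → ℝ)
      (β : J → Matrix (Blk d k) (Blk d k) ℂ),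
      0 ≤ q ∧ q ≤ (m : ℝ) + 1 ∧ (∀ j, (σ j).PosSemidef) ∧ (∀ j x, 0 ≤ r j x) ∧
      (∀ j, (β j).PosSemidef) ∧ (∀ j x, steer (M x) (σ j) = (r j x : ℂ) • β j) ∧
      (((2 * q * g : ℝ) : ℂ) • 1 - ∑ j, σ j).PosSemidef ∧
      ∀ y, steer (M y) (∑ j, σ j) = ((q * g * (M y).trace.re : ℝ) : ℂ) • 1
        + (e : ℂ) • embS S (partTr S (M y)) := by
  classical
  obtain ⟨hpsd, hsum, hproj | ho⟩ := hM
  · -- projective measurement
    set Y := fun x => (((M x).trace.re⁻¹ : ℝ) : ℂ) • embS S (partTr S (M x)) with hY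
    have hYpm : ∀ x, (1 + Y x).PosSemidef ∧ (1 - Y x).PosSemidef := by
      intro x
      have hnn : 0 ≤ (M x).trace.re := (Complex.le_def.mp (hpsd x).trace_nonneg).1
      refine ⟨PosSemidef.one.add (psd_smul_real (embS_psd (partTr_psd (hpsd x)))
        (inv_nonneg.mpr hnn)), ?_⟩
      rcases eq_or_lt_of_le hnn with h | h
      · simp only [hY, ← h]; simpa using PosSemidef.one
      · have := psd_smul_real (embS_psd (S := S)
          (psd_trace_smul_one_sub (partTr_psd (S := S) (hpsd x)))) (inv_nonneg.mpr hnn)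
        rw [embS_sub, embS_smul, embS_one, smul_sub, smul_smul, trace_partTr,
          ← Complex.ofReal_mul, inv_mul_cancel₀ h.ne', Complex.ofReal_one, one_smul] at this
        exact this
    set b := fun x => (g : ℂ) • (1 : Matrix (Blk d k) (Blk d k) ℂ) + (e : ℂ) • Y x with hb
    have hbp : ∀ x, (b x).PosSemidef := fun x => psd_affine (hYpm x).1 (hYpm x).2 he
    refine ⟨1, Fin o, inferInstance, fun x => M x ⊗ₖ b x,
      fun x y => if x = y then (M y).trace.re else 0, b, zero_le_one,
      by linarith [(Nat.cast_nonneg m : (0 : ℝ) ≤ m)],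
      fun x => (hpsd x).kronecker (hbp x), ?_, hbp, ?_, ?_, ?_⟩
    · intro x y
      by_cases h : x = y <;> simp only [h, if_true, if_false, le_refl]
      exact (Complex.le_def.mp (hpsd y).trace_nonneg).1
    · intro x y
      rw [steer_kronecker]
      by_cases h : x = y
      · subst h; simp only [hproj, if_true, ← trace_ofReal (hpsd x)]
      · simp only [if_neg h, trace_mul_eq_zero_of_proj hpsd hsum hproj h]; simp
    · have : ((2 * 1 * g : ℝ) : ℂ) • (1 : Matrix (Blk d k × Blk d k) (Blk d k × Blk d k) ℂ)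
          - ∑ x, M x ⊗ₖ b x
          = ∑ x, M x ⊗ₖ ((g : ℂ) • 1 + ((-e : ℝ) : ℂ) • Y x) := by
        have hone : (1 : Matrix (Blk d k × Blk d k) (Blk d k × Blk d k) ℂ)
            = ∑ x, M x ⊗ₖ (1 : Matrix (Blk d k) (Blk d k) ℂ) := by
          rw [← sum_kronecker, hsum, one_kronecker_one]
        rw [hone]
        rw [Finset.smul_sum, ← Finset.sum_sub_distrib]
        refine Finset.sum_congr rfl fun x _ => ?_
        ext p q
        simp [hb]; ring
      rw [this]
      exact posSemidef_sum _ fun x _ =>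
        (hpsd x).kronecker (psd_affine (hYpm x).1 (hYpm x).2 (by rwa [abs_neg]))
    · intro y
      rw [steer_sum, Finset.sum_eq_single y]
      · rw [steer_kronecker, hproj, hb, hY, smul_add, smul_smul, smul_smul, smul_smul]
        congr 1
        · conv_lhs => rw [trace_ofReal (hpsd y)]
          push_cast; ring_nf
        · by_cases h : (M y).trace.re = 0
          · have : M y = 0 := by
              rw [← (hpsd y).trace_eq_zero_iff, trace_ofReal (hpsd y), h, Complex.ofReal_zero]
            simp [this, partTr_zero, embS_zero]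
          · congr 1
            obtain ⟨t, ht⟩ : ∃ t : ℝ, (M y).trace = t := ⟨_, trace_ofReal (hpsd y)⟩
            rw [ht, Complex.ofReal_re] at h ⊢
            have h' : (t : ℂ) ≠ 0 := by exact_mod_cast h
            push_cast; field_simp
      · intro x _ h
        rw [steer_kronecker, trace_mul_eq_zero_of_proj hpsd hsum hproj h, zero_smul]
      · simp
  · -- few outcomes
    obtain ⟨X, hXH, hX1, hXN⟩ :=
      exists_orth_family (fun x => partTr S (M x)) fun x => partTr_isHermitian (hpsd x).1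
    set E := fun i => embS S (X i) with hE
    have hEpm : ∀ i, (1 + E i).PosSemidef ∧ (1 - E i).PosSemidef := by
      intro i
      obtain ⟨h1, h2⟩ := psd_one_add_sub_of_trace_sq_le (hXH i) (hX1 i)
      have h1' := embS_psd (S := S) h1
      have h2' := embS_psd (S := S) h2
      rw [embS_add, embS_one] at h1'
      rw [embS_sub, embS_one] at h2'
      exact ⟨h1', h2'⟩
    set s : Bool → ℝ := fun u => if u then 1 else -1 with hs
    set A := fun (p : Fin o × Bool) => (1 : Matrix (Blk d k) (Blk d k) ℂ) + (s p.2 : ℂ) • E p.1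
      with hA
    set B := fun (p : Fin o × Bool) =>
      ((g / 2 : ℝ) : ℂ) • (1 : Matrix (Blk d k) (Blk d k) ℂ) + ((s p.2 * e / 2 : ℝ) : ℂ) • E p.1
      with hB
    have hAp : ∀ p, (A p).PosSemidef := by
      intro p
      have := psd_affine (g := 1) (e := s p.2) (hEpm p.1).1 (hEpm p.1).2
        (by cases p.2 <;> simp [hs])
      simpa [hA] using this
    have hBp : ∀ p, (B p).PosSemidef := fun p => psd_affine (hEpm p.1).1 (hEpm p.1).2 (by
      cases p.2 <;> simp [hs, abs_div, abs_of_pos (two_pos : (0 : ℝ) < 2)] <;> linarith)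
    have hP : ∑ p, A p ⊗ₖ B p
        = ∑ i, ((g : ℂ) • (1 : Matrix (Blk d k × Blk d k) (Blk d k × Blk d k) ℂ)
          + (e : ℂ) • (E i ⊗ₖ E i)) := by
      rw [Fintype.sum_prod_type]
      refine Finset.sum_congr rfl fun i _ => ?_
      rw [Fintype.sum_bool]
      ext p q
      simp [hA, hB, hs, one_prod_apply]; ring
    refine ⟨(o : ℝ), Fin o × Bool, inferInstance, fun p => A p ⊗ₖ B p,
      fun p y => (M y * A p).trace.re, B, Nat.cast_nonneg o, ?_,
      fun p => (hAp p).kronecker (hBp p), fun p y => trace_mul_psd_re_nonneg (hpsd y) (hAp p),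
      hBp, ?_, ?_, ?_⟩
    · have : (o : ℝ) ≤ m := by exact_mod_cast ho
      linarith
    · intro p y
      rw [steer_kronecker]
      congr 1
      have h := Complex.le_def.mp (trace_mul_psd_nonneg (hpsd y) (hAp p))
      apply Complex.ext
      · simp
      · simpa using h.2.symm
    · rw [hP]
      have : ((2 * (o : ℝ) * g : ℝ) : ℂ) • (1 : Matrix (Blk d k × Blk d k) (Blk d k × Blk d k) ℂ)
          - ∑ i, ((g : ℂ) • (1 : Matrix (Blk d k × Blk d k) (Blk d k × Blk d k) ℂ)
            + (e : ℂ) • (E i ⊗ₖ E i))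
          = ∑ i, ((g : ℂ) • (1 : Matrix (Blk d k × Blk d k) (Blk d k × Blk d k) ℂ)
            + ((-e : ℝ) : ℂ) • (E i ⊗ₖ E i)) := by
        simp only [Finset.sum_add_distrib, Finset.sum_const, card_univ, Fintype.card_fin,
          Complex.ofReal_neg, neg_smul, Finset.sum_neg_distrib]
        push_cast; module
      rw [this]
      refine posSemidef_sum _ fun i _ => psd_affine ?_ ?_ (by rwa [abs_neg])
      · have : 1 + E i ⊗ₖ E i = ((1 / 2 : ℝ) : ℂ) • ((1 + E i) ⊗ₖ (1 + E i))
            + ((1 / 2 : ℝ) : ℂ) • ((1 - E i) ⊗ₖ (1 - E i)) := by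
          ext p q; simp [one_prod_apply]; ring
        rw [this]
        exact (psd_smul_real ((hEpm i).1.kronecker (hEpm i).1) (by norm_num)).add
          (psd_smul_real ((hEpm i).2.kronecker (hEpm i).2) (by norm_num))
      · have : 1 - E i ⊗ₖ E i = ((1 / 2 : ℝ) : ℂ) • ((1 + E i) ⊗ₖ (1 - E i))
            + ((1 / 2 : ℝ) : ℂ) • ((1 - E i) ⊗ₖ (1 + E i)) := by
          ext p q; simp [one_prod_apply]; ring
        rw [this]
        exact (psd_smul_real ((hEpm i).1.kronecker (hEpm i).2) (by norm_num)).add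
          (psd_smul_real ((hEpm i).2.kronecker (hEpm i).1) (by norm_num))
    · intro y
      rw [hP, steer_sum]
      simp only [steer_add, steer_smul, ← one_kronecker_one, steer_kronecker, Matrix.mul_one,
        Finset.sum_add_distrib, Finset.sum_const, card_univ, Fintype.card_fin]
      congr 1
      · conv_lhs => rw [trace_ofReal (hpsd y)]
        push_cast; module
      · rw [← Finset.smul_sum]
        congr 1
        conv_rhs => rw [hXN y, embS_sum]
        refine Finset.sum_congr rfl fun i _ => ?_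
        rw [embS_smul, hE, trace_mul_embS]

lemma sum_pow_card_nonempty (k : ℕ) (x : ℝ) :
    ∑ S ∈ (univ : Finset (Finset (Fin k))).erase ∅, x ^ S.card = (1 + x) ^ k - 1 := by
  have h : ∑ S : Finset (Fin k), x ^ S.card = (1 + x) ^ k := by
    have := Fintype.sum_pow_mul_eq_add_pow (Fin k) x (1 : ℝ)
    simpa [add_comm] using this
  rw [← h, ← Finset.add_sum_erase _ _ (mem_univ (∅ : Finset (Fin k)))]
  simp

/-- Every allowed block measurement is uncorrelated in a decomposition of a weakly entangled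
Werner block. -/
lemma block_uncorr (m : ℕ) {o : ℕ} {M : Fin o → Matrix (Blk d k) (Blk d k) ℂ}
    (hM : AllowedMeas m M) {g : ℝ} (hg : 0 < g) {μ : ℝ} (hμ : |μ| ≤ g)
    (hbud : (2 * (m : ℝ) + 3) * ((1 + g) ^ k - 1) ≤ 1) :
    Uncorr M (∑ S : Finset (Fin k), ((μ ^ S.card : ℝ) : ℂ) • flipSet d S) := by
  classical
  have hpow : ∀ S : Finset (Fin k), |μ ^ S.card| ≤ g ^ S.card := fun S => by
    rw [abs_pow]; exact pow_le_pow_left₀ (abs_nonneg _) hμ _
  choose q J hJ σ r β hq0 hq1 hσ hr hβ hst hle htot using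
    fun S => exists_pieces hM S (pow_pos hg S.card) (hpow S)
  set 𝒮 := (univ : Finset (Finset (Fin k))).erase ∅ with h𝒮
  set P := fun S => ∑ j, σ S j with hP
  set rest := (1 : Matrix (Blk d k × Blk d k) (Blk d k × Blk d k) ℂ)
    + ∑ S ∈ 𝒮, (((μ ^ S.card : ℝ) : ℂ) • flipSet d S - P S) with hrest
  set K : ℝ := ∑ S ∈ 𝒮, q S * g ^ S.card with hK
  have hsum𝒮 : ∑ S ∈ 𝒮, g ^ S.card = (1 + g) ^ k - 1 := sum_pow_card_nonempty k g
  have hK1 : K ≤ ((m : ℝ) + 1) * ((1 + g) ^ k - 1) := by
    rw [← hsum𝒮, Finset.mul_sum]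
    exact Finset.sum_le_sum fun S _ => mul_le_mul_of_nonneg_right (hq1 S) (pow_pos hg _).le
  have hG0 : 0 ≤ (1 + g) ^ k - 1 := by
    rw [← hsum𝒮]; exact Finset.sum_nonneg fun S _ => (pow_pos hg _).le
  have hrestpsd : rest.PosSemidef := by
    have : rest = ((1 - ∑ S ∈ 𝒮, (1 + 2 * q S) * g ^ S.card : ℝ) : ℂ) •
        (1 : Matrix (Blk d k × Blk d k) (Blk d k × Blk d k) ℂ) +
        ∑ S ∈ 𝒮, (((((g ^ S.card : ℝ)) : ℂ) • 1 + ((μ ^ S.card : ℝ) : ℂ) • flipSet d S) +
          (((2 * q S * g ^ S.card : ℝ) : ℂ) • 1 - P S)) := by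
      simp only [hrest, Finset.sum_add_distrib, Finset.sum_sub_distrib, ← Finset.sum_smul,
        Complex.ofReal_sub, Complex.ofReal_one, Complex.ofReal_sum, add_mul, one_mul]
      push_cast
      module
    rw [this]
    refine (psd_smul_real PosSemidef.one ?_).add (posSemidef_sum _ fun S _ => ?_)
    · rw [sub_nonneg]
      refine le_trans ?_ hbud
      rw [← hsum𝒮, Finset.mul_sum]
      exact Finset.sum_le_sum fun S _ =>
        mul_le_mul_of_nonneg_right (by linarith [hq1 S]) (pow_pos hg _).le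
    · exact (psd_affine (psd_one_pm_of_involution (flipSet_isHermitian S) (flipSet_mul_self S)).1
        (psd_one_pm_of_involution (flipSet_isHermitian S) (flipSet_mul_self S)).2 (hpow S)).add
        (hle S)
  have hreststeer : ∀ y, steer (M y) rest = (((M y).trace.re * (1 - K) : ℝ) : ℂ) • 1 := by
    intro y
    rw [hrest, steer_add, steer_sum]
    simp only [steer_sub, steer_smul, steer_flipSet, hP, htot]
    rw [show steer (M y) 1 = ((M y).trace.re : ℂ) • (1 : Matrix (Blk d k) (Blk d k) ℂ) by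
      rw [← one_kronecker_one, steer_kronecker, Matrix.mul_one, ← trace_ofReal (hM.1 y)]]
    simp only [Finset.sum_sub_distrib, Finset.sum_add_distrib, ← Finset.sum_smul, hK,
      Complex.ofReal_mul, Complex.ofReal_sub, Complex.ofReal_one, Complex.ofReal_sum]
    rw [← Finset.sum_mul]
    module
  have hone : flipSet d (∅ : Finset (Fin k)) = 1 := by simp [flipSet, pairSq_one]
  refine ⟨Option (Σ S : 𝒮, J S.1), inferInstance,
    fun j => j.elim rest (fun p => σ p.1.1 p.2),
    fun j y => j.elim ((M y).trace.re * (1 - K)) (fun p => r p.1.1 p.2 y),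
    fun j => j.elim 1 (fun p => β p.1.1 p.2), ?_, ?_, ?_, ?_, ?_⟩
  · rintro (_ | p)
    · exact hrestpsd
    · exact hσ _ _
  · rintro (_ | p) y
    · refine mul_nonneg (Complex.le_def.mp (hM.1 y).trace_nonneg).1 (sub_nonneg.mpr ?_)
      refine hK1.trans (le_trans ?_ hbud)
      exact mul_le_mul_of_nonneg_right (by linarith [(Nat.cast_nonneg m : (0 : ℝ) ≤ m)]) hG0
    · exact hr _ _ _
  · rintro (_ | p)
    · exact PosSemidef.one
    · exact hβ _ _
  · rintro (_ | p) y
    · exact hreststeer y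
    · exact hst _ _ _
  · rw [Fintype.sum_option, Fintype.sum_sigma]
    simp only [Option.elim]
    rw [show (∑ S : 𝒮, ∑ j, σ S.1 j) = ∑ S ∈ 𝒮, P S from Finset.sum_coe_sort 𝒮 P, hrest,
      Finset.sum_sub_distrib, add_assoc, sub_add_cancel,
      ← Finset.add_sum_erase _ _ (mem_univ (∅ : Finset (Fin k)))]
    simp [hone, h𝒮]

end Vale.Agent.P372
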