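import Mathlib

/-! Definitions for block-measurement key distillation protocols (P372). -/

namespace Vale.Agent.P372

open Matrix Finset
open scoped Kronecker ComplexOrder

/-- Trace norm `tr √(X* X)`: the sum of the square roots of the eigenvalues of `X* X`. -/
noncomputable def traceNorm {n : Type*} [Fintype n] [DecidableEq n] (X : Matrix n n ℂ) : ℝ :=
  ∑ i, Real.sqrt ((Matrix.isHermitian_conjTranspose_mul_self X).eigenvalues i)

/-- A density operator. -/
def IsState {n : Type*} [Fintype n] (ρ : Matrix n n ℂ) : Prop :=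
  ρ.PosSemidef ∧ ρ.trace = 1

/-- Separable: a finite convex combination of product states. -/
def Separable {a b : Type*} [Fintype a] [Fintype b] (ρ : Matrix (a × b) (a × b) ℂ) : Prop :=
  ∃ (r : ℕ) (p : Fin r → ℝ) (α : Fin r → Matrix a a ℂ) (β : Fin r → Matrix b b ℂ),
    (∀ i, 0 ≤ p i) ∧ ∑ i, p i = 1 ∧ (∀ i, IsState (α i) ∧ IsState (β i)) ∧
      ρ = ∑ i, (p i : ℂ) • (α i ⊗ₖ β i)

/-- Basis labels of one party for `N` blocks, block `i` consisting of `sz i` copies of `Fin d`. -/
abbrev Sys (d : ℕ) {N : ℕ} (sz : Fin N → ℕ) : Type := ∀ i, Fin (sz i) → Fin d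

/-- Basis labels of Eve, who holds one purifying system `e` for each copy. -/
abbrev EveSys (e : Type) {N : ℕ} (sz : Fin N → ℕ) : Type := ∀ i, Fin (sz i) → e

/-- The product over all copies of the purification `ψ` (rows: Alice and Bob, columns: Eve). -/
def purifPow {d : ℕ} {e : Type} (ψ : Matrix (Fin d × Fin d) e ℂ) {N : ℕ} (sz : Fin N → ℕ) :
    Matrix (Sys d sz × Sys d sz) (EveSys e sz) ℂ :=
  Matrix.of fun p z => ∏ i, ∏ l, ψ (p.1 i l, p.2 i l) (z i l)

/-- Eve's subnormalised state when the effect `M` occurs on Alice and Bob's systems: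
`tr_{AB} ((M ⊗ 1) |Ψ⟩⟨Ψ|)`. -/
def eveState {X Z : Type*} [Fintype X] (Ψ : Matrix X Z ℂ) (M : Matrix X X ℂ) : Matrix Z Z ℂ :=
  Matrix.of fun z z' => ∑ x, ∑ y, M y x * Ψ x z * star (Ψ y z')

/-- Key registers, transcript, and Eve's systems. -/
abbrev Final (l : ℕ) (T Z : Type) : Type := ((Fin l → Bool) × (Fin l → Bool)) × (T × Z)

/-- The final state: both keys, and Eve holding her systems and a copy of the transcript. -/
def finalState {l : ℕ} {T Z X : Type} [Fintype X] [DecidableEq T] (Ψ : Matrix X Z ℂ)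
    (Eff : T → (Fin l → Bool) → (Fin l → Bool) → Matrix X X ℂ) :
    Matrix (Final l T Z) (Final l T Z) ℂ :=
  Matrix.of fun p q =>
    if p.1 = q.1 ∧ p.2.1 = q.2.1 then eveState Ψ (Eff p.2.1 p.1.1 p.1.2) p.2.2 q.2.2 else 0

/-- The ideal state `2^{-l} ∑ |z,z⟩⟨z,z| ⊗ σ`. -/
noncomputable def idealState {l : ℕ} {T Z : Type} (σ : Matrix (T × Z) (T × Z) ℂ) :
    Matrix (Final l T Z) (Final l T Z) ℂ :=
  Matrix.of fun p q =>
    if p.1 = q.1 ∧ p.1.1 = p.1.2 then ((2 : ℂ) ^ l)⁻¹ * σ p.2 q.2 else 0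

/-- A measurement allowed to the restricted party on one block: a POVM which is either
projective, of any ranks and any number of outcomes, or has at most `m` outcomes. -/
def AllowedMeas (m : ℕ) {P : Type*} [Fintype P] [DecidableEq P] {o : ℕ}
    (M : Fin o → Matrix P P ℂ) : Prop :=
  (∀ x, (M x).PosSemidef) ∧ ∑ x, M x = 1 ∧ ((∀ x, M x * M x = M x) ∨ o ≤ m)

/-- The effects of a protocol in which one party (Alice if `side = true`, else Bob) measures
each block separately, block `i` by `M t i` which may depend on the transcript `t`, and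
processes the outcomes classically by weights `f`, while the other party is arbitrary. -/
def BlockProtocol (m : ℕ) {d N l : ℕ} (sz : Fin N → ℕ) (side : Bool) {T : Type}
    (Eff : T → (Fin l → Bool) → (Fin l → Bool) →
      Matrix (Sys d sz × Sys d sz) (Sys d sz × Sys d sz) ℂ) : Prop :=
  ∃ (o : T → Fin N → ℕ)
    (M : ∀ t i, Fin (o t i) → Matrix (Fin (sz i) → Fin d) (Fin (sz i) → Fin d) ℂ)
    (f : ∀ t, (Fin l → Bool) → (∀ i, Fin (o t i)) → ℝ)
    (R : T → (Fin l → Bool) → Matrix (Sys d sz) (Sys d sz) ℂ),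
    (∀ t i, AllowedMeas m (M t i)) ∧ (∀ t k x, 0 ≤ f t k x) ∧ (∀ t k, (R t k).PosSemidef) ∧
    ∀ t ka kb, Eff t ka kb =
      if side = true then
        (∑ x : ∀ i, Fin (o t i), (f t ka x : ℂ) •
          Matrix.of (fun a a' : Sys d sz => ∏ i, M t i (x i) (a i) (a' i))) ⊗ₖ R t kb
      else
        R t ka ⊗ₖ (∑ x : ∀ i, Fin (o t i), (f t kb x : ℂ) •
          Matrix.of (fun a a' : Sys d sz => ∏ i, M t i (x i) (a i) (a' i)))

end Vale.Agent.P372
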