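import Vale.Agent.P372.Basic

/-! Tensor products over a finite index set and steering maps. -/

namespace Vale.Agent.P372

open Matrix Finset
open scoped Kronecker ComplexOrder

variable {ι : Type*} [Fintype ι] [DecidableEq ι] {X Y Z : ι → Type*}
  [∀ i, Fintype (X i)] [∀ i, Fintype (Y i)] [∀ i, Fintype (Z i)]

/-- Tensor product over `ι`. -/
def piMat (M : ∀ i, Matrix (X i) (Y i) ℂ) : Matrix (∀ i, X i) (∀ i, Y i) ℂ :=
  Matrix.of fun a b => ∏ i, M i (a i) (b i)

omit [DecidableEq ι] [∀ i, Fintype (X i)] [∀ i, Fintype (Y i)] in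
lemma piMat_conjTranspose (M : ∀ i, Matrix (X i) (Y i) ℂ) :
    (piMat M)ᴴ = piMat fun i => (M i)ᴴ := by
  ext a b; simp [piMat, star_prod]

omit [∀ i, Fintype (X i)] [∀ i, Fintype (Z i)] in
lemma piMat_mul (M : ∀ i, Matrix (X i) (Y i) ℂ) (N : ∀ i, Matrix (Y i) (Z i) ℂ) :
    piMat M * piMat N = piMat fun i => M i * N i := by
  ext a b
  simp only [piMat, Matrix.mul_apply, of_apply, ← Finset.prod_mul_distrib]
  rw [Fintype.prod_sum fun i c => M i (a i) c * N i c (b i)]

omit [DecidableEq ι] [∀ i, Fintype (X i)] in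
lemma piMat_one [∀ i, DecidableEq (X i)] [DecidableEq (∀ i, X i)] :
    piMat (fun i => (1 : Matrix (X i) (X i) ℂ)) = 1 := by
  ext a b
  simp only [piMat, of_apply, Matrix.one_apply, Fintype.prod_boole, funext_iff]

lemma piMat_psd [∀ i, DecidableEq (X i)] {M : ∀ i, Matrix (X i) (X i) ℂ}
    (h : ∀ i, (M i).PosSemidef) : (piMat M).PosSemidef := by
  choose L hL using fun i => psd_factor (h i)
  have : piMat M = (piMat L)ᴴ * piMat L := by
    rw [piMat_conjTranspose, piMat_mul]; exact congrArg piMat (funext hL)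
  rw [this]; exact posSemidef_conjTranspose_mul_self _

omit [∀ i, Fintype (X i)] [∀ i, Fintype (Y i)] in
lemma piMat_smul (c : ι → ℂ) (M : ∀ i, Matrix (X i) (Y i) ℂ) :
    piMat (fun i => c i • M i) = (∏ i, c i) • piMat M := by
  ext a b; simp [piMat, Finset.prod_mul_distrib]

omit [∀ i, Fintype (X i)] [∀ i, Fintype (Y i)] in
lemma piMat_sum {J : ι → Type*} [∀ i, Fintype (J i)] (σ : ∀ i, J i → Matrix (X i) (Y i) ℂ) :
    ∑ j : ∀ i, J i, piMat (fun i => σ i (j i)) = piMat fun i => ∑ k, σ i k := by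
  ext a b
  simp only [piMat, Matrix.sum_apply, of_apply]
  rw [Fintype.prod_sum fun i k => σ i k (a i) (b i)]

/-- Tensor product of bipartite matrices, regrouped as (all left) × (all right). -/
def pairMat {W : ι → Type*} (σ : ∀ i, Matrix (X i × Y i) (W i) ℂ) :
    Matrix ((∀ i, X i) × (∀ i, Y i)) (∀ i, W i) ℂ :=
  (piMat σ).submatrix (fun p i => (p.1 i, p.2 i)) id

/-- The square version of `pairMat`. -/
def pairSq (σ : ∀ i, Matrix (X i × Y i) (X i × Y i) ℂ) :
    Matrix ((∀ i, X i) × (∀ i, Y i)) ((∀ i, X i) × (∀ i, Y i)) ℂ :=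
  (piMat σ).submatrix (fun p i => (p.1 i, p.2 i)) (fun p i => (p.1 i, p.2 i))

lemma pairSq_psd [∀ i, DecidableEq (X i)] [∀ i, DecidableEq (Y i)]
    {σ : ∀ i, Matrix (X i × Y i) (X i × Y i) ℂ}
    (h : ∀ i, (σ i).PosSemidef) : (pairSq σ).PosSemidef :=
  (piMat_psd h).submatrix _

omit [∀ i, Fintype (X i)] [∀ i, Fintype (Y i)] in
lemma pairSq_sum {J : ι → Type*} [∀ i, Fintype (J i)]
    (σ : ∀ i, J i → Matrix (X i × Y i) (X i × Y i) ℂ) :
    ∑ j : ∀ i, J i, pairSq (fun i => σ i (j i)) = pairSq fun i => ∑ k, σ i k := by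
  unfold pairSq
  rw [← piMat_sum]
  ext p q
  simp [Matrix.sum_apply]

lemma pairSq_mul (σ τ : ∀ i, Matrix (X i × Y i) (X i × Y i) ℂ) :
    pairSq σ * pairSq τ = pairSq fun i => σ i * τ i := by
  unfold pairSq
  rw [← piMat_mul]
  exact submatrix_mul_equiv _ _ _ (Equiv.arrowProdEquivProdArrow ι X Y).symm _

omit [∀ i, Fintype (X i)] [∀ i, Fintype (Y i)] [DecidableEq ι] in
lemma pairSq_one [∀ i, DecidableEq (X i)] [∀ i, DecidableEq (Y i)]
    [DecidableEq (∀ i, X i)] [DecidableEq (∀ i, Y i)] :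
    pairSq (fun i => (1 : Matrix (X i × Y i) (X i × Y i) ℂ)) = 1 := by
  classical
  ext p q
  simp only [pairSq, piMat, submatrix_apply, of_apply, Matrix.one_apply, Fintype.prod_boole,
    Prod.ext_iff, funext_iff, forall_and]

omit [∀ i, Fintype (X i)] [∀ i, Fintype (Y i)] in
lemma pairMat_mul_conjTranspose {W : ι → Type*} [∀ i, Fintype (W i)]
    (ψ : ∀ i, Matrix (X i × Y i) (W i) ℂ) :
    pairMat ψ * (pairMat ψ)ᴴ = pairSq fun i => ψ i * (ψ i)ᴴ := by
  unfold pairMat pairSq
  rw [conjTranspose_submatrix, piMat_conjTranspose, ← piMat_mul,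
    submatrix_mul _ _ _ _ _ Function.bijective_id]

/-- `steer M R = tr_A ((M ⊗ 1) R)`. -/
def steer {A B : Type*} [Fintype A] (M : Matrix A A ℂ) (R : Matrix (A × B) (A × B) ℂ) :
    Matrix B B ℂ :=
  Matrix.of fun b b' => ∑ a, ∑ a', M a' a * R (a, b) (a', b')

section steer

variable {A B : Type*} [Fintype A]

lemma steer_add (M : Matrix A A ℂ) (R S : Matrix (A × B) (A × B) ℂ) :
    steer M (R + S) = steer M R + steer M S := by
  ext b b'; simp [steer, mul_add, Finset.sum_add_distrib]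

lemma steer_sub (M : Matrix A A ℂ) (R S : Matrix (A × B) (A × B) ℂ) :
    steer M (R - S) = steer M R - steer M S := by
  ext b b'; simp [steer, mul_sub, Finset.sum_sub_distrib]

lemma steer_smul (M : Matrix A A ℂ) (c : ℂ) (R : Matrix (A × B) (A × B) ℂ) :
    steer M (c • R) = c • steer M R := by
  ext b b'; simp [steer, Finset.mul_sum, mul_left_comm]

lemma steer_sum (M : Matrix A A ℂ) {κ : Type*} (s : Finset κ)
    (R : κ → Matrix (A × B) (A × B) ℂ) : steer M (∑ k ∈ s, R k) = ∑ k ∈ s, steer M (R k) := by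
  ext b b'
  simp only [steer, of_apply, Matrix.sum_apply, Finset.mul_sum]
  rw [Finset.sum_comm (s := s)]
  exact Finset.sum_congr rfl fun a _ => Finset.sum_comm

lemma steer_kronecker (M U : Matrix A A ℂ) (V : Matrix B B ℂ) :
    steer M (U ⊗ₖ V) = (M * U).trace • V := by
  ext b b'
  simp only [steer, of_apply, kronecker_apply, Matrix.smul_apply, smul_eq_mul, Matrix.trace,
    diag_apply, Matrix.mul_apply, Finset.sum_mul]
  rw [Finset.sum_comm]
  simp only [mul_assoc]

lemma trace_kronecker_mul [Fintype B] (M : Matrix A A ℂ) (N : Matrix B B ℂ)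
    (R : Matrix (A × B) (A × B) ℂ) : ((M ⊗ₖ N) * R).trace = (N * steer M R).trace := by
  simp only [Matrix.trace, diag_apply, Matrix.mul_apply, kronecker_apply, steer, of_apply,
    Fintype.sum_prod_type, Finset.mul_sum]
  rw [Finset.sum_comm]
  refine Finset.sum_congr rfl fun b _ => ?_
  conv_rhs => enter [2, b']; rw [Finset.sum_comm]
  conv_rhs => rw [Finset.sum_comm]; enter [2, a']; rw [Finset.sum_comm]
  refine Finset.sum_congr rfl fun a _ => ?_
  refine Finset.sum_congr rfl fun a' _ => ?_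
  refine Finset.sum_congr rfl fun b' _ => ?_
  ring

end steer

omit [∀ i, Fintype (Y i)] in
lemma steer_piMat_pairSq (M : ∀ i, Matrix (X i) (X i) ℂ)
    (σ : ∀ i, Matrix (X i × Y i) (X i × Y i) ℂ) :
    steer (piMat M) (pairSq σ) = piMat fun i => steer (M i) (σ i) := by
  ext b b'
  simp only [steer, piMat, pairSq, of_apply, submatrix_apply, ← Finset.prod_mul_distrib]
  rw [Fintype.prod_sum fun i a => ∑ a', M i a' a * σ i (a, b i) (a', b' i)]
  refine Finset.sum_congr rfl fun a _ => ?_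
  rw [Fintype.prod_sum fun i a' => M i a' (a i) * σ i (a i, b i) (a', b' i)]

lemma trace_mul_submatrix_swap {A B : Type*} [Fintype A] [Fintype B]
    (M : Matrix A A ℂ) (N : Matrix B B ℂ) (R : Matrix (B × A) (B × A) ℂ) :
    ((N ⊗ₖ M) * R).trace = ((M ⊗ₖ N) * R.submatrix Prod.swap Prod.swap).trace := by
  simp only [Matrix.trace, diag_apply, Matrix.mul_apply, kronecker_apply, submatrix_apply]
  rw [← Equiv.sum_comp (Equiv.prodComm B A)]
  refine Finset.sum_congr rfl fun p _ => ?_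
  rw [← Equiv.sum_comp (Equiv.prodComm B A)]
  refine Finset.sum_congr rfl fun q _ => ?_
  simp only [Equiv.prodComm_apply, Prod.swap_swap, kroneckerMap_apply, Prod.fst_swap,
    Prod.snd_swap]
  ring

end Vale.Agent.P372
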