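import Vale.Agent.P372.Block

/-! No key bit from a weakly entangled Werner state when one party measures block by block. -/

namespace Vale.Agent.P372

open Matrix Finset
open scoped Kronecker ComplexOrder

/-- The Werner state proportional to `1 - lam • flip`. -/
noncomputable def werner (d : ℕ) (lam : ℝ) : Matrix (Fin d × Fin d) (Fin d × Fin d) ℂ :=
  (((d : ℝ) * d - lam * d)⁻¹ : ℝ) • (1 - lam • flipOp d)

lemma trace_flipOp (d : ℕ) : (flipOp d).trace = d := by
  simp only [Matrix.trace, diag_apply, flipOp, of_apply, Fintype.sum_prod_type, ite_and]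
  simp [eq_comm]

lemma flipOp_isHermitian (d : ℕ) : (flipOp d).IsHermitian := by
  ext p q
  simp [flipOp, eq_comm, and_comm, apply_ite (star : ℂ → ℂ)]

lemma werner_eq (d : ℕ) (lam : ℝ) :
    werner d lam = ((((d : ℝ) * d - lam * d)⁻¹ : ℝ) : ℂ) •
      ((1 : Matrix (Fin d × Fin d) (Fin d × Fin d) ℂ) + ((-lam : ℝ) : ℂ) • flipOp d) := by
  ext p q
  simp [werner, Complex.real_smul, sub_eq_add_neg]
  ring

lemma norm_pos {d : ℕ} {lam : ℝ} (hd : 0 < d) (hlam : lam < 1) :
    0 < (d : ℝ) * d - lam * d := by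
  have : (1 : ℝ) ≤ d := by exact_mod_cast hd
  nlinarith

lemma werner_isState {d : ℕ} {lam : ℝ} (hd : 0 < d) (h0 : 0 ≤ lam) (h1 : lam < 1) :
    IsState (werner d lam) := by
  have hc := norm_pos hd h1
  rw [IsState, werner_eq]
  refine ⟨psd_smul_real ?_ (inv_nonneg.mpr hc.le), ?_⟩
  · obtain ⟨hp, hm⟩ := psd_one_pm_of_involution (flipOp_isHermitian d) flipOp_mul_self
    have := psd_affine hp hm (g := 1) (e := -lam) (by rw [abs_neg, abs_of_nonneg h0]; exact h1.le)
    simpa using this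
  · rw [trace_smul, trace_add, trace_smul, trace_one, trace_flipOp, smul_eq_mul, smul_eq_mul]
    have hc' : ((d : ℂ) * d - lam * d) ≠ 0 := by exact_mod_cast hc.ne'
    simp only [Fintype.card_prod, Fintype.card_fin]
    push_cast
    rw [show (d : ℂ) * d + -(lam : ℂ) * d = d * d - lam * d by ring, inv_mul_cancel₀ hc']

lemma trace_flip_mul_kronecker {d : ℕ} (α β : Matrix (Fin d) (Fin d) ℂ) :
    (flipOp d * (α ⊗ₖ β)).trace = (α * β).trace := by
  simp only [Matrix.trace, diag_apply, Matrix.mul_apply, flipOp, of_apply, kronecker_apply,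
    kroneckerMap_apply, Fintype.sum_prod_type, ite_mul, one_mul, zero_mul, ite_and]
  simp [Finset.sum_comm (f := fun (i j : Fin d) => α i j * β j i)]

lemma werner_not_separable {d : ℕ} {lam : ℝ} (hd : 0 < d) (h1 : lam < 1) (h : 1 < lam * d) :
    ¬ Separable (werner d lam) := by
  rintro ⟨r, p, α, β, hp, -, hs, hw⟩
  have hnn : 0 ≤ (flipOp d * werner d lam).trace := by
    rw [hw, Matrix.mul_sum, trace_sum]
    refine Finset.sum_nonneg fun i _ => ?_
    rw [Matrix.mul_smul, trace_smul, smul_eq_mul, trace_flip_mul_kronecker]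
    exact mul_nonneg (by exact_mod_cast hp i) (trace_mul_psd_nonneg (hs i).1.1 (hs i).2.1)
  rw [werner_eq, Matrix.mul_smul, Matrix.mul_add, Matrix.mul_smul, Matrix.mul_one,
    flipOp_mul_self, trace_smul, trace_add, trace_smul, trace_flipOp, trace_one] at hnn
  simp only [Fintype.card_prod, Fintype.card_fin, smul_eq_mul] at hnn
  have hre : (0 : ℝ) ≤ ((d : ℝ) * d - lam * d)⁻¹ * (d + -lam * (d * d)) := by
    have he : ((((d : ℝ) * d - lam * d)⁻¹ : ℝ) : ℂ) * ((d : ℂ) + ((-lam : ℝ) : ℂ) * ((d * d : ℕ) : ℂ))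
        = ((((d : ℝ) * d - lam * d)⁻¹ * (d + -lam * (d * d)) : ℝ) : ℂ) := by push_cast; rfl
    rw [he] at hnn
    exact_mod_cast hnn
  have hc := inv_pos.mpr (norm_pos hd h1)
  have hneg : (d : ℝ) + -lam * (d * d) < 0 := by
    have : (0 : ℝ) < d := by exact_mod_cast hd
    nlinarith
  nlinarith

lemma werner_inv {d : ℕ} {lam : ℝ} (hd : 0 < d) (h0 : 0 ≤ lam) (h1 : lam < 1) :
    ∃ W : Matrix (Fin d × Fin d) (Fin d × Fin d) ℂ,
      W.IsHermitian ∧ werner d lam * W = 1 := by
  have hc := norm_pos hd h1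
  refine ⟨((((d : ℝ) * d - lam * d) / (1 - lam * lam) : ℝ) : ℂ) •
    ((1 : Matrix (Fin d × Fin d) (Fin d × Fin d) ℂ) + (lam : ℂ) • flipOp d), ?_, ?_⟩
  · simp [Matrix.IsHermitian, conjTranspose_smul, (flipOp_isHermitian d).eq]
  · have hne : (1 - lam * lam) ≠ 0 := by nlinarith
    rw [werner_eq, smul_mul_smul_comm, add_mul, mul_add, mul_add, Matrix.one_mul, Matrix.one_mul,
      Matrix.mul_one, smul_mul_smul_comm, flipOp_mul_self]
    have hs : (((d : ℝ) * d - lam * d)⁻¹ * (((d : ℝ) * d - lam * d) / (1 - lam * lam)))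
        * (1 - lam * lam) = 1 := by
      rw [div_eq_mul_inv, ← mul_assoc, inv_mul_cancel₀ hc.ne', one_mul, inv_mul_cancel₀ hne]
    have hs' := congrArg (Complex.ofReal) hs
    push_cast at hs'
    calc _ = ((((d : ℂ) * d - lam * d)⁻¹ * (((d : ℂ) * d - lam * d) / (1 - lam * lam)))
          * (1 - lam * lam)) • (1 : Matrix (Fin d × Fin d) (Fin d × Fin d) ℂ) := by
            push_cast; module
      _ = 1 := by rw [hs', one_smul]

lemma flipOp_swap (d : ℕ) : (flipOp d).submatrix Prod.swap Prod.swap = flipOp d := by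
  ext p q; simp [flipOp, and_comm]

lemma werner_swap (d : ℕ) (lam : ℝ) :
    (werner d lam).submatrix Prod.swap Prod.swap = werner d lam := by
  ext p q
  have h1 := congrFun (congrFun (flipOp_swap d) p) q
  simp only [submatrix_apply] at h1
  simp [werner, h1, Matrix.one_apply, Prod.swap_inj]

lemma pairSq_swap {ι : Type*} [Fintype ι] {X : ι → Type*}
    (σ : ∀ i, Matrix (X i × X i) (X i × X i) ℂ) :
    (pairSq σ).submatrix Prod.swap Prod.swap
      = pairSq fun i => (σ i).submatrix Prod.swap Prod.swap := by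
  ext p q; simp [pairSq, piMat]

lemma pairSq_isHermitian {ι : Type*} [Fintype ι] {X : ι → Type*}
    {σ : ∀ i, Matrix (X i × X i) (X i × X i) ℂ} (h : ∀ i, (σ i).IsHermitian) :
    (pairSq σ).IsHermitian := by
  ext p q
  simp only [conjTranspose_apply, pairSq, piMat, submatrix_apply, of_apply, star_prod]
  exact Finset.prod_congr rfl fun i _ => (h i).apply _ _

lemma pairSq_werner {d : ℕ} (k : ℕ) (lam : ℝ) :
    pairSq (fun _ : Fin k => werner d lam)
      = (((((d : ℝ) * d - lam * d)⁻¹) ^ k : ℝ) : ℂ) •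
        ∑ S : Finset (Fin k), (((-lam) ^ S.card : ℝ) : ℂ) • flipSet d S := by
  classical
  ext p q
  simp only [pairSq, piMat, submatrix_apply, of_apply, werner_eq, Matrix.smul_apply,
    Matrix.add_apply, smul_eq_mul, Matrix.sum_apply, Finset.prod_mul_distrib, Finset.prod_const,
    card_univ, Fintype.card_fin, Complex.ofReal_pow]
  congr 1
  conv_lhs => enter [2, l]; rw [add_comm]
  rw [Fintype.prod_add]
  refine Finset.sum_congr rfl fun S _ => ?_
  simp only [flipSet, pairSq, piMat, submatrix_apply, of_apply, Finset.prod_mul_distrib,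
    Finset.prod_const, mul_assoc]
  congr 1
  rw [← Finset.prod_mul_prod_compl S]
  congr 1
  · exact Finset.prod_congr rfl fun l hl => by rw [if_pos hl]
  · exact Finset.prod_congr rfl fun l hl => by rw [if_neg (Finset.mem_compl.mp hl)]

lemma Uncorr.smul {P : Type*} [Fintype P] {o : ℕ} {M : Fin o → Matrix P P ℂ}
    {R : Matrix (P × P) (P × P) ℂ} (h : Uncorr M R) {c : ℝ} (hc : 0 ≤ c) :
    Uncorr M ((c : ℂ) • R) := by
  obtain ⟨J, hJ, σ, r, β, hσ, hr, hβ, hst, hR⟩ := h
  refine ⟨J, hJ, fun j => (c : ℂ) • σ j, r, fun j => (c : ℂ) • β j,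
    fun j => psd_smul_real (hσ j) hc, hr, fun j => psd_smul_real (hβ j) hc, fun j x => ?_, ?_⟩
  · rw [steer_smul, hst, smul_comm]
  · rw [← Finset.smul_sum, hR]

lemma budget {g : ℝ} (h0 : 0 ≤ g) (h1 : g ≤ 1) (k : ℕ) :
    (1 + g) ^ k - 1 ≤ (2 ^ k - 1) * g := by
  induction k with
  | zero => simp
  | succ k ih =>
    have h2 : (1 : ℝ) ≤ 2 ^ k := one_le_pow₀ (by norm_num)
    rw [pow_succ, pow_succ]
    nlinarith [mul_le_mul_of_nonneg_right ih h0,
      mul_le_mul_of_nonneg_left h1 (mul_nonneg (sub_nonneg.mpr h2) h0)]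

lemma eveState_eq {X Z : Type*} [Fintype X] (Ψ : Matrix X Z ℂ) (E : Matrix X X ℂ) :
    eveState Ψ E = (Ψᴴ * E * Ψ)ᵀ := by
  ext z z'
  simp only [eveState, of_apply, transpose_apply, Matrix.mul_apply, conjTranspose_apply,
    Finset.sum_mul]
  exact Finset.sum_congr rfl fun x _ => Finset.sum_congr rfl fun y _ => by ring

section Eve

variable {X Z : Type*} [Fintype X] [DecidableEq X] [Fintype Z] [DecidableEq Z]
  (Ψ : Matrix X Z ℂ) {Ri : Matrix X X ℂ}

/-- Eve can realise every decomposition of the (invertible) state by a measurement. -/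
lemma eve_pretty_good (hRi : Ri.IsHermitian) (hinv : Ψ * Ψᴴ * Ri = 1) {J : Type*} [Fintype J]
    (σ : J → Matrix X X ℂ) (hσ : ∀ j, (σ j).PosSemidef) (hsum : ∑ j, σ j = Ψ * Ψᴴ) :
    ∃ G : Option J → Matrix Z Z ℂ, (∀ j, (G j).PosSemidef) ∧ ∑ j, G j = 1 ∧
      ∀ j E, (G j * eveState Ψ E).trace = j.elim 0 fun j => (E * σ j).trace := by
  have hinv' : Ri * (Ψ * Ψᴴ) = 1 := mul_eq_one_comm.mp hinv
  set Pr := Ψᴴ * Ri * Ψ with hPr
  have hPrH : Prᴴ = Pr := by
    simp only [hPr, conjTranspose_mul, conjTranspose_conjTranspose, hRi.eq, Matrix.mul_assoc]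
  have hPr2 : Pr * Pr = Pr := by
    calc Pr * Pr = Ψᴴ * (Ri * (Ψ * Ψᴴ)) * (Ri * Ψ) := by simp only [hPr, Matrix.mul_assoc]
      _ = _ := by rw [hinv', Matrix.mul_one, hPr, Matrix.mul_assoc]
  have hQ : (1 - Pr).PosSemidef := by
    have : 1 - Pr = (1 - Pr)ᴴ * (1 - Pr) := by
      rw [conjTranspose_sub, conjTranspose_one, hPrH, sub_mul, mul_sub, mul_sub, hPr2]
      simp
    rw [this]; exact posSemidef_conjTranspose_mul_self _
  refine ⟨fun j => (j.elim (1 - Pr) fun j => Ψᴴ * (Ri * σ j * Ri) * Ψ)ᵀ, ?_, ?_, ?_⟩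
  · rintro (_ | j)
    · exact hQ.transpose
    · refine PosSemidef.transpose ?_
      have h1 : (Ri * σ j * Ri).PosSemidef := by
        have := (hσ j).mul_mul_conjTranspose_same Ri
        rwa [hRi.eq] at this
      exact h1.conjTranspose_mul_mul_same Ψ
  · rw [Fintype.sum_option, ← transpose_sum, ← transpose_add]
    simp only [Option.elim, ← Matrix.sum_mul, ← Matrix.mul_sum, hsum, hinv', Matrix.one_mul]
    rw [← hPr, sub_add_cancel, transpose_one]
  · rintro (_ | j) E
    · rw [eveState_eq, ← transpose_mul, trace_transpose]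
      have hz : Ψᴴ * E * Ψ * Pr = Ψᴴ * E * Ψ := by
        calc Ψᴴ * E * Ψ * Pr = Ψᴴ * E * ((Ψ * Ψᴴ * Ri) * Ψ) := by
              simp only [hPr, Matrix.mul_assoc]
          _ = _ := by rw [hinv, Matrix.one_mul]
      simp only [Option.elim, mul_sub, Matrix.mul_one, hz, sub_self, trace_zero]
    · simp only [Option.elim]
      rw [eveState_eq, ← transpose_mul, trace_transpose]
      calc (Ψᴴ * E * Ψ * (Ψᴴ * (Ri * σ j * Ri) * Ψ)).trace
          = (Ψᴴ * (E * ((Ψ * Ψᴴ * Ri) * (σ j * (Ri * Ψ))))).trace := by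
            simp only [Matrix.mul_assoc]
        _ = (E * (σ j * (Ri * (Ψ * Ψᴴ)))).trace := by
            rw [hinv, Matrix.one_mul, Matrix.trace_mul_comm]
            simp only [Matrix.mul_assoc]
        _ = _ := by rw [hinv', Matrix.mul_one]

end Eve

lemma trace_diag_diag_mul {K T Z : Type*} [Fintype K] [DecidableEq K] [Fintype T] [DecidableEq T]
    [Fintype Z] (f : K → ℂ) (g : T → ℂ) (G : Matrix Z Z ℂ)
    (Y : Matrix (K × (T × Z)) (K × (T × Z)) ℂ) :
    ((diagonal f ⊗ₖ (diagonal g ⊗ₖ G)) * Y).trace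
      = ∑ k, ∑ t, f k * g t * ∑ z, ∑ z', G z z' * Y (k, (t, z')) (k, (t, z)) := by
  simp only [Matrix.trace, diag_apply, Matrix.mul_apply, kroneckerMap_apply,
    Fintype.sum_prod_type, diagonal_apply, Finset.mul_sum]
  refine Finset.sum_congr rfl fun k _ => Finset.sum_congr rfl fun t _ =>
    Finset.sum_congr rfl fun z _ => ?_
  simp [ite_mul, mul_ite, mul_assoc]

lemma sum_first_eq (l : ℕ) (u : Bool) :
    ∑ z : Fin (l + 1) → Bool, (if z 0 = u then (1 : ℝ) else 0) = 2 ^ l := by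
  rw [← (Fin.consEquiv fun _ => Bool).sum_comp, Fintype.sum_prod_type]
  cases u <;> simp [Fin.consEquiv]

/-- If, for every transcript, Eve's state has a decomposition in which the two keys are
independent in every term, the final state is far from an ideal key. -/
lemma far_from_ideal {l : ℕ} {T Z X : Type} [Fintype T] [DecidableEq T] [Fintype Z] [DecidableEq Z]
    [Fintype X] [DecidableEq X] (Ψ : Matrix X Z ℂ) {Ri : Matrix X X ℂ} (hRi : Ri.IsHermitian)
    (hinv : Ψ * Ψᴴ * Ri = 1)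
    (Eff : T → (Fin (l + 1) → Bool) → (Fin (l + 1) → Bool) → Matrix X X ℂ)
    (hdec : ∀ t, ∃ (J : Type) (_ : Fintype J) (σ : J → Matrix X X ℂ)
      (a b : J → (Fin (l + 1) → Bool) → ℝ), (∀ j, (σ j).PosSemidef) ∧ (∀ j k, 0 ≤ a j k) ∧
      (∀ j k, 0 ≤ b j k) ∧ ∑ j, σ j = Ψ * Ψᴴ ∧
      ∀ j ka kb, (Eff t ka kb * σ j).trace = ((a j ka * b j kb : ℝ) : ℂ))
    (σE : Matrix (T × Z) (T × Z) ℂ) (hσE : IsState σE) :
    1 / 2 ≤ traceNorm (finalState Ψ Eff - idealState σE) := by
  classical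
  choose J hJ σ a b hσ ha hb hsum htr using hdec
  choose G hGp hG1 hGt using fun t => eve_pretty_good Ψ hRi hinv (σ t) (hσ t) (hsum t)
  let blk : T → Matrix Z Z ℂ := fun t => σE.submatrix (Prod.mk t) (Prod.mk t)
  have hblk : ∀ t, (blk t).PosSemidef := fun t => hσE.1.submatrix _
  let q : (Σ t, Option (J t)) → ℝ := fun s => (G s.1 s.2 * blk s.1).trace.re
  have hq : ∀ s : Σ t, Option (J t), (G s.1 s.2 * blk s.1).trace = (q s : ℂ) := by
    intro s
    have h := Complex.le_def.mp (trace_mul_psd_nonneg (hGp s.1 s.2) (hblk s.1))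
    apply Complex.ext
    · simp [q]
    · simpa using h.2.symm
  have hqsum : ∑ s, q s = 1 := by
    have : ∑ s : Σ t, Option (J t), (G s.1 s.2 * blk s.1).trace = 1 := by
      rw [Fintype.sum_sigma]
      simp only [← trace_sum, ← Matrix.sum_mul, hG1, Matrix.one_mul]
      rw [← hσE.2]
      simp only [blk, Matrix.trace, diag_apply, Fintype.sum_prod_type, Matrix.sum_apply,
        submatrix_apply]
      exact Finset.sum_comm
    simp only [hq] at this
    exact_mod_cast this
  let D : Bool → Bool → ((Fin (l + 1) → Bool) × (Fin (l + 1) → Bool)) → ℂ :=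
    fun u v k => if k.1 0 = u ∧ k.2 0 = v then 1 else 0
  let test : (Σ t, Option (J t)) × Bool × Bool →
      Matrix (Final (l + 1) T Z) (Final (l + 1) T Z) ℂ := fun i =>
    diagonal (D i.2.1 i.2.2) ⊗ₖ (diagonal (Pi.single i.1.1 1) ⊗ₖ G i.1.1 i.1.2)
  have htp : ∀ i, (test i).PosSemidef := fun i => by
    refine (PosSemidef.diagonal fun k => ?_).kronecker
      ((PosSemidef.diagonal fun t => ?_).kronecker (hGp _ _))
    · simp only [D, Pi.zero_apply]; split_ifs <;> simp
    · simp only [Pi.zero_apply, Pi.single_apply]; split_ifs <;> simp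
  have ht1 : ∑ i, test i = 1 := by
    ext ⟨k, t, z⟩ ⟨k', t', z'⟩
    have hz : ∀ t₀, ∑ j, G t₀ j z z' = (1 : Matrix Z Z ℂ) z z' := fun t₀ => by
      rw [← hG1 t₀, Matrix.sum_apply]
    simp only [test, Matrix.sum_apply, kroneckerMap_apply, Fintype.sum_prod_type,
      Fintype.sum_sigma, Fintype.sum_bool]
    simp only [← Finset.mul_sum, ← Finset.sum_add_distrib, ← add_mul, hz]
    by_cases hk : k = k'
    · subst hk
      by_cases ht : t = t'
      · subst ht
        cases h1 : k.1 0 <;> cases h2 : k.2 0 <;>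
          simp [D, h1, h2, Matrix.one_apply, Pi.single_apply]
      · simp [Matrix.one_apply, ht]
    · simp [Matrix.one_apply, hk]
  refine le_trans ?_ (sum_trace_mul_le_traceNorm test htp ht1 _)
  let A : (Σ t, Option (J t)) → Bool → ℝ := fun s u =>
    ∑ k : Fin (l + 1) → Bool, if k 0 = u then s.2.elim 0 (fun j => a s.1 j k) else 0
  let B : (Σ t, Option (J t)) → Bool → ℝ := fun s u =>
    ∑ k : Fin (l + 1) → Bool, if k 0 = u then s.2.elim 0 (fun j => b s.1 j k) else 0
  have hA : ∀ s u, 0 ≤ A s u := fun s u => Finset.sum_nonneg fun k _ => by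
    split_ifs
    · rcases s with ⟨t, _ | j⟩ <;> simp [ha]
    · exact le_rfl
  have hB : ∀ s u, 0 ≤ B s u := fun s u => Finset.sum_nonneg fun k _ => by
    split_ifs
    · rcases s with ⟨t, _ | j⟩ <;> simp [hb]
    · exact le_rfl
  have hval : ∀ i, (test i * (finalState Ψ Eff - idealState σE)).trace
      = ((A i.1 i.2.1 * B i.1 i.2.2 - if i.2.1 = i.2.2 then q i.1 / 2 else 0 : ℝ) : ℂ) := by
    rintro ⟨s, u, v⟩
    rw [trace_diag_diag_mul]
    simp only [Pi.single_apply, mul_ite, mul_one, mul_zero, ite_mul, zero_mul,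
      Finset.sum_ite_eq', mem_univ, if_true]
    have hE : ∀ ka kb, ∑ z, ∑ z', G s.1 s.2 z z' * eveState Ψ (Eff s.1 ka kb) z' z
        = ((s.2.elim 0 (fun j => a s.1 j ka) * s.2.elim 0 (fun j => b s.1 j kb) : ℝ) : ℂ) := by
      intro ka kb
      have : ∑ z, ∑ z', G s.1 s.2 z z' * eveState Ψ (Eff s.1 ka kb) z' z
          = (G s.1 s.2 * eveState Ψ (Eff s.1 ka kb)).trace := by
        simp [Matrix.trace, Matrix.mul_apply]
      rw [this, hGt]
      rcases s with ⟨t, _ | j⟩ <;> simp [htr]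
    have hI : ∑ z, ∑ z', G s.1 s.2 z z' * σE (s.1, z') (s.1, z) = (q s : ℂ) := by
      rw [← hq s]; simp [Matrix.trace, Matrix.mul_apply, blk]
    have hY : ∀ ka kb, ∑ z, ∑ z', G s.1 s.2 z z' *
        (finalState Ψ Eff - idealState σE : Matrix (Final (l + 1) T Z) (Final (l + 1) T Z) ℂ) ((ka, kb), (s.1, z')) ((ka, kb), (s.1, z))
        = ((s.2.elim 0 (fun j => a s.1 j ka) * s.2.elim 0 (fun j => b s.1 j kb)
            - if ka = kb then ((2 : ℝ) ^ (l + 1))⁻¹ * q s else 0 : ℝ) : ℂ) := by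
      intro ka kb
      simp only [Matrix.sub_apply, mul_sub, Finset.sum_sub_distrib, finalState, idealState,
        of_apply, true_and, and_self, if_true, Complex.ofReal_sub, hE]
      congr 1
      split_ifs with h
      · simp only [mul_left_comm _ ((2 : ℂ) ^ (l + 1))⁻¹, ← Finset.mul_sum, hI]
        push_cast; rfl
      · simp
    rw [Fintype.sum_prod_type]
    simp only [D, hY]
    have hhalf : ∑ ka : Fin (l + 1) → Bool, ∑ kb : Fin (l + 1) → Bool,
        (if ka 0 = u ∧ kb 0 = v then (if ka = kb then ((2 : ℝ) ^ (l + 1))⁻¹ * q s else 0) else 0)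
        = if u = v then q s / 2 else 0 := by
      by_cases huv : u = v
      · subst huv
        have : ∀ ka kb : Fin (l + 1) → Bool,
            (if ka 0 = u ∧ kb 0 = u then (if ka = kb then ((2 : ℝ) ^ (l + 1))⁻¹ * q s else 0)
              else 0)
            = if ka = kb then (if ka 0 = u then (1 : ℝ) else 0) * (((2 : ℝ) ^ (l + 1))⁻¹ * q s)
              else 0 := by
          intro ka kb
          by_cases h : ka = kb
          · subst h; by_cases h' : ka 0 = u <;> simp [h']
          · simp [h]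
        simp only [this, Finset.sum_ite_eq, mem_univ, if_true, ← Finset.sum_mul, sum_first_eq]
        rw [pow_succ]
        have h2 : (2 : ℝ) ^ l ≠ 0 := pow_ne_zero _ (by norm_num)
        field_simp
      · simp only [if_neg huv]
        refine Finset.sum_eq_zero fun ka _ => Finset.sum_eq_zero fun kb _ => ?_
        split_ifs with h h' <;> try rfl
        exact absurd (h.1.symm.trans (h' ▸ h.2)) huv
    rw [← hhalf]
    simp only [A, B, Finset.sum_mul_sum, Complex.ofReal_sub, Complex.ofReal_sum,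
      ← Finset.sum_sub_distrib]
    refine Finset.sum_congr rfl fun ka _ => Finset.sum_congr rfl fun kb _ => ?_
    by_cases h1 : ka 0 = u <;> by_cases h2 : kb 0 = v <;> simp [h1, h2]
  simp only [hval, Complex.norm_real, Real.norm_eq_abs]
  rw [Fintype.sum_prod_type]
  calc (1 / 2 : ℝ) = ∑ s, q s / 2 := by rw [← Finset.sum_div, hqsum]
    _ ≤ _ := Finset.sum_le_sum fun s _ => by
        rw [Fintype.sum_prod_type]
        exact product_far_from_bit (hA s) (hB s) (q s)

/-- The product decomposition adapted to one transcript. -/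
lemma product_dec {N : ℕ} {P : Fin N → Type} [∀ i, Fintype (P i)] [∀ i, DecidableEq (P i)]
    {o : Fin N → ℕ} {M : ∀ i, Fin (o i) → Matrix (P i) (P i) ℂ}
    {R : ∀ i, Matrix (P i × P i) (P i × P i) ℂ} (h : ∀ i, Uncorr (M i) (R i)) :
    ∃ (J : Type) (_ : Fintype J)
      (σ : J → Matrix ((∀ i, P i) × (∀ i, P i)) ((∀ i, P i) × (∀ i, P i)) ℂ)
      (r : J → (∀ i, Fin (o i)) → ℝ) (β : J → Matrix (∀ i, P i) (∀ i, P i) ℂ),
      (∀ j, (σ j).PosSemidef) ∧ (∀ j x, 0 ≤ r j x) ∧ (∀ j, (β j).PosSemidef) ∧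
      (∀ j x, steer (piMat fun i => M i (x i)) (σ j) = (r j x : ℂ) • β j) ∧
      ∑ j, σ j = pairSq R := by
  classical
  choose J hJ σ r β hσ hr hβ hst hsum using h
  refine ⟨∀ i, J i, inferInstance, fun j => pairSq fun i => σ i (j i),
    fun j x => ∏ i, r i (j i) (x i), fun j => piMat fun i => β i (j i),
    fun j => pairSq_psd fun i => hσ i _, fun j x => Finset.prod_nonneg fun i _ => hr i _ _,
    fun j => piMat_psd fun i => hβ i _, fun j x => ?_, ?_⟩
  · rw [steer_piMat_pairSq]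
    simp only [hst, piMat_smul, Complex.ofReal_prod]
  · rw [pairSq_sum]; simp only [hsum]

lemma trace_block_effect {N : ℕ} {P : Fin N → Type} [∀ i, Fintype (P i)] [∀ i, DecidableEq (P i)]
    {o : Fin N → ℕ} {M : ∀ i, Fin (o i) → Matrix (P i) (P i) ℂ} (w : (∀ i, Fin (o i)) → ℝ)
    {Rb : Matrix (∀ i, P i) (∀ i, P i) ℂ} (hRb : Rb.PosSemidef)
    {σ : Matrix ((∀ i, P i) × (∀ i, P i)) ((∀ i, P i) × (∀ i, P i)) ℂ}
    {r : (∀ i, Fin (o i)) → ℝ} {β : Matrix (∀ i, P i) (∀ i, P i) ℂ} (hβ : β.PosSemidef)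
    (hst : ∀ x, steer (piMat fun i => M i (x i)) σ = (r x : ℂ) • β) :
    (((∑ x : ∀ i, Fin (o i), (w x : ℂ) • piMat fun i => M i (x i)) ⊗ₖ Rb) * σ).trace
      = (((∑ x, w x * r x) * (Rb * β).trace.re : ℝ) : ℂ) := by
  classical
  have hre : (Rb * β).trace = ((Rb * β).trace.re : ℂ) := by
    have h := Complex.le_def.mp (trace_mul_psd_nonneg hRb hβ)
    apply Complex.ext
    · simp
    · simpa using h.2.symm
  rw [sum_kronecker, Matrix.sum_mul, trace_sum, Finset.sum_mul, Complex.ofReal_sum]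
  refine Finset.sum_congr rfl fun x _ => ?_
  rw [smul_kronecker, Matrix.smul_mul, trace_smul, trace_kronecker_mul, hst, Matrix.mul_smul,
    trace_smul, Complex.ofReal_mul, Complex.ofReal_mul, ← hre, smul_eq_mul, smul_eq_mul]
  ring

/-- Weakly entangled Werner states give no key bit under block measurements of one party. -/
theorem werner_zero_key (m k d : ℕ) {lam : ℝ} (hd : 0 < d) (h0 : 0 < lam) (h1 : lam < 1)
    (hbud : (2 * (m : ℝ) + 3) * ((1 + lam) ^ k - 1) ≤ 1)
    (e : Type) [Fintype e] [DecidableEq e] (ψ : Matrix (Fin d × Fin d) e ℂ)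
    (hψ : ψ * ψᴴ = werner d lam) (N : ℕ) (sz : Fin N → ℕ) (hsz : ∀ i, sz i ≤ k) (side : Bool)
    (l : ℕ) (hl : 1 ≤ l) (T : Type) [Fintype T] [DecidableEq T]
    (Eff : T → (Fin l → Bool) → (Fin l → Bool) →
      Matrix (Sys d sz × Sys d sz) (Sys d sz × Sys d sz) ℂ)
    (hP : BlockProtocol m sz side Eff) (σE : Matrix (T × EveSys e sz) (T × EveSys e sz) ℂ)
    (hσE : IsState σE) :
    1 / 2 ≤ traceNorm (finalState (purifPow ψ sz) Eff - idealState σE) := by
  classical
  obtain ⟨l, rfl⟩ : ∃ l', l = l' + 1 := ⟨l - 1, by omega⟩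
  obtain ⟨W, hWH, hW⟩ := werner_inv hd h0.le h1
  set Rn : Matrix (Sys d sz × Sys d sz) (Sys d sz × Sys d sz) ℂ :=
    pairSq fun i => pairSq fun _ : Fin (sz i) => werner d lam with hRn
  have hΨ : purifPow ψ sz * (purifPow ψ sz)ᴴ = Rn := by
    have : purifPow ψ sz = pairMat fun i => pairMat fun _ : Fin (sz i) => ψ := rfl
    rw [this, pairMat_mul_conjTranspose]
    simp only [pairMat_mul_conjTranspose, hψ, hRn]
  refine far_from_ideal (purifPow ψ sz)
    (Ri := pairSq fun i => pairSq fun _ : Fin (sz i) => W)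
    (pairSq_isHermitian fun i => pairSq_isHermitian fun _ => hWH) ?_ Eff (fun t => ?_) σE hσE
  · rw [hΨ, hRn, pairSq_mul]
    simp only [pairSq_mul, hW, pairSq_one]
  obtain ⟨o, M, f, R, hM, hf, hR, hEff⟩ := hP
  have hU : ∀ i, Uncorr (M t i) (pairSq fun _ : Fin (sz i) => werner d lam) := by
    intro i
    rw [pairSq_werner]
    refine (block_uncorr m (hM t i) h0 (μ := -lam) ?_ ?_).smul
      (pow_nonneg (inv_nonneg.mpr (norm_pos hd h1).le) _)
    · rw [abs_neg, abs_of_pos h0]
    · refine le_trans ?_ hbud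
      have := pow_le_pow_right₀ (by linarith : (1 : ℝ) ≤ 1 + lam) (hsz i)
      exact mul_le_mul_of_nonneg_left (by linarith) (by positivity)
  obtain ⟨J, hJ, σ, r, β, hσ, hr, hβ, hst, hsum⟩ := product_dec hU
  cases side with
  | true =>
    refine ⟨J, hJ, σ, fun j ka => ∑ x, f t ka x * r j x,
      fun j kb => (R t kb * β j).trace.re, hσ,
      fun j ka => Finset.sum_nonneg fun x _ => mul_nonneg (hf t ka x) (hr j x),
      fun j kb => trace_mul_psd_re_nonneg (hR t kb) (hβ j), by rw [hΨ, hsum], fun j ka kb => ?_⟩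
    rw [hEff, if_pos rfl]
    exact trace_block_effect (M := M t) (f t ka) (hR t kb) (hβ j) (hst j)
  | false =>
    refine ⟨J, hJ, fun j => (σ j).submatrix Prod.swap Prod.swap,
      fun j ka => (R t ka * β j).trace.re, fun j kb => ∑ x, f t kb x * r j x,
      fun j => (hσ j).submatrix _,
      fun j ka => trace_mul_psd_re_nonneg (hR t ka) (hβ j),
      fun j kb => Finset.sum_nonneg fun x _ => mul_nonneg (hf t kb x) (hr j x), ?_,
      fun j ka kb => ?_⟩
    · have hsw : Rn.submatrix Prod.swap Prod.swap = Rn := by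
        rw [hRn, pairSq_swap]; simp only [pairSq_swap, werner_swap]
      rw [hΨ, ← hsw, hRn, ← hsum]
      ext p q; simp [Matrix.sum_apply]
    · rw [hEff, if_neg (by simp), trace_mul_submatrix_swap, submatrix_submatrix,
        show ∀ M' : Matrix (Sys d sz × Sys d sz) (Sys d sz × Sys d sz) ℂ,
          M'.submatrix (Prod.swap ∘ Prod.swap) (Prod.swap ∘ Prod.swap) = M' from fun M' => by
            simp [Prod.swap_swap_eq], mul_comm (R t ka * β j).trace.re]
      exact trace_block_effect (M := M t) (f t kb) (hR t ka) (hβ j) (hst j)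

end Vale.Agent.P372
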